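import Vale.Agent.P284.H650.MixDefs
import Mathlib.LinearAlgebra.Matrix.SchurComplement
import Mathlib.LinearAlgebra.Matrix.Trace

/-!
# P284, block A'': the mixed discriminant of forms of rank one (Cauchy-Binet)
-/

noncomputable section

namespace Vale.Agent.P284.H650

open Matrix Equiv

/-! ### Determinants -/

section det
variable {m : Type*} [Fintype m] [DecidableEq m]

theorem det_sub_rk1 (G : Matrix m m ℂ) (c u : m → ℂ) :
    det (Matrix.of fun k l => G k l - c k * u l) = det G - ∑ k, c k * det (G.updateRow k u) := by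
  classical
  have key : ∀ S : Finset m, det (Matrix.of fun k l => if k ∈ S then G k l - c k * u l else G k l) =
      det G - ∑ k ∈ S, c k * det (G.updateRow k u) := by
    intro S
    induction S using Finset.induction_on with
    | empty =>
      simp only [Finset.notMem_empty, if_false, Finset.sum_empty, sub_zero]
      rfl
    | insert k₀ S hk ih =>
      rw [Finset.sum_insert hk]
      set H : Matrix m m ℂ := Matrix.of fun k l => if k ∈ S then G k l - c k * u l else G k l with hH
      have e1 : (Matrix.of fun k l => if k ∈ insert k₀ S then G k l - c k * u l else G k l) =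
          H.updateRow k₀ (G k₀ + (-c k₀) • u) := by
        ext k l
        by_cases h : k = k₀
        · subst h
          simp [sub_eq_add_neg]
        · rw [Matrix.updateRow_ne h, hH]
          simp [Finset.mem_insert, h]
      have e2 : det (H.updateRow k₀ (G k₀)) = det H := by
        congr 1
        ext k l
        by_cases h : k = k₀
        · subst h
          rw [Matrix.updateRow_self, hH]
          simp [hk]
        · rw [Matrix.updateRow_ne h]
      have e3 : det (H.updateRow k₀ u) = det (G.updateRow k₀ u) := by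
        refine Matrix.det_eq_of_forall_row_eq_smul_add_const
          (fun k => if k = k₀ then 0 else if k ∈ S then -c k else 0) k₀ (by simp) ?_
        intro k l
        by_cases h : k = k₀
        · subst h
          simp
        · rw [Matrix.updateRow_ne h, Matrix.updateRow_ne h, Matrix.updateRow_self, if_neg h, hH,
            Matrix.of_apply]
          by_cases h' : k ∈ S
          · rw [if_pos h', if_pos h']; ring
          · rw [if_neg h', if_neg h']; ring
      rw [e1, Matrix.det_updateRow_add, Matrix.det_updateRow_smul, e2, e3, ih]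
      ring
  have h := key Finset.univ
  simpa using h

theorem det_updateRow_sum' {ι : Type*} (s : Finset ι) (G : Matrix m m ℂ) (k : m) (c : ι → ℂ)
    (u : ι → m → ℂ) : det (G.updateRow k (fun l => ∑ x ∈ s, c x * u x l)) =
      ∑ x ∈ s, c x * det (G.updateRow k (u x)) := by
  classical
  induction s using Finset.induction_on with
  | empty =>
    simp only [Finset.sum_empty]
    exact Matrix.det_eq_zero_of_row_eq_zero k fun j => by simp
  | insert x s hx ih =>
    have : (fun l => ∑ x ∈ insert x s, c x * u x l) = c x • u x + fun l => ∑ x ∈ s, c x * u x l := by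
      funext l
      rw [Finset.sum_insert hx]
      rfl
    rw [this, Matrix.det_updateRow_add, Matrix.det_updateRow_smul, ih, Finset.sum_insert hx]

theorem sum_det_sub {ι : Type*} [Fintype ι] (c u : m → ι → ℂ) :
    ∑ x, det (Matrix.of fun k l => (∑ y, c k y * u l y) - c k x * u l x) =
      ((Fintype.card ι : ℂ) - Fintype.card m) * det (Matrix.of fun k l => ∑ y, c k y * u l y) := by
  set G : Matrix m m ℂ := Matrix.of fun k l => ∑ y, c k y * u l y with hG
  have h1 : ∀ x, det (Matrix.of fun k l => (∑ y, c k y * u l y) - c k x * u l x) =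
      det G - ∑ k, c k x * det (G.updateRow k (fun l => u l x)) := by
    intro x
    rw [← det_sub_rk1]
    rfl
  simp only [h1, Finset.sum_sub_distrib]
  rw [Finset.sum_comm]
  have h2 : ∀ k, ∑ x, c k x * det (G.updateRow k (fun l => u l x)) = det G := by
    intro k
    rw [← det_updateRow_sum']
    congr 1
    exact Matrix.updateRow_eq_self G k
  simp only [h2, Finset.sum_const, Finset.card_univ, nsmul_eq_mul]
  ring

end det

variable {n : ℕ}

/-- bordered determinant -/
theorem det_snoc {r : ℕ} (u c : Fin r → Fin n → ℂ) (x : Fin n) :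
    det (Matrix.of fun k l : Fin (r + 1) =>
      (Fin.snoc (α := fun _ => Fin n → ℂ) c (Pi.single x 1) k : Fin n → ℂ) ⬝ᵥ
        (Fin.snoc (α := fun _ => Fin n → ℂ) u (Pi.single x 1) l : Fin n → ℂ)) =
      det (Matrix.of fun k l => (∑ y, c k y * u l y) - c k x * u l x) := by
  have h := Matrix.det_fromBlocks_one₂₂ (Matrix.of fun k l : Fin r => ∑ y, c k y * u l y)
    (Matrix.of fun (k : Fin r) (_ : Fin 1) => c k x) (Matrix.of fun (_ : Fin 1) (l : Fin r) => u l x)
  have e2 : (Matrix.of fun k l : Fin r => ∑ y, c k y * u l y) -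
      (Matrix.of fun (k : Fin r) (_ : Fin 1) => c k x) *
        (Matrix.of fun (_ : Fin 1) (l : Fin r) => u l x) =
      Matrix.of fun k l => (∑ y, c k y * u l y) - c k x * u l x := by
    ext k l
    simp [Matrix.mul_apply]
  rw [e2] at h
  rw [← h, ← Matrix.det_submatrix_equiv_self (finSumFinEquiv (m := r) (n := 1))]
  congr 1
  ext k l
  rcases k with k | k <;> rcases l with l | l
  · simp only [Matrix.submatrix_apply, Matrix.of_apply, Matrix.fromBlocks_apply₁₁,
      finSumFinEquiv_apply_left]
    have e : ∀ k : Fin r, Fin.castAdd 1 k = Fin.castSucc k := fun _ => rfl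
    rw [e, e, Fin.snoc_castSucc, Fin.snoc_castSucc]
    rfl
  · simp only [Matrix.submatrix_apply, Matrix.of_apply, Matrix.fromBlocks_apply₁₂,
      finSumFinEquiv_apply_left, finSumFinEquiv_apply_right]
    have e : ∀ k : Fin r, Fin.castAdd 1 k = Fin.castSucc k := fun _ => rfl
    have e' : Fin.natAdd r l = Fin.last r := by
      ext; simp
    rw [e, e', Fin.snoc_castSucc, Fin.snoc_last]
    simp
  · simp only [Matrix.submatrix_apply, Matrix.of_apply, Matrix.fromBlocks_apply₂₁,
      finSumFinEquiv_apply_left, finSumFinEquiv_apply_right]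
    have e : ∀ k : Fin r, Fin.castAdd 1 k = Fin.castSucc k := fun _ => rfl
    have e' : Fin.natAdd r k = Fin.last r := by
      ext; simp
    rw [e, e', Fin.snoc_castSucc, Fin.snoc_last]
    simp
  · simp only [Matrix.submatrix_apply, Matrix.of_apply, Matrix.fromBlocks_apply₂₂,
      finSumFinEquiv_apply_right]
    have e' : ∀ k : Fin 1, Fin.natAdd r k = Fin.last r := by
      intro k; ext; simp
    rw [e', e', Fin.snoc_last, Fin.snoc_last]
    have : k = l := Subsingleton.elim _ _
    subst this
    simp

/-- forms of rank one in the places `i < r`, `a` otherwise -/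
def RS {r : ℕ} (u c : Fin r → Fin n → ℂ) (a : Matrix (Fin n) (Fin n) ℂ) (i : Fin n) :
    Matrix (Fin n) (Fin n) ℂ :=
  if h : (i : ℕ) < r then rk1 (u ⟨i, h⟩) (c ⟨i, h⟩) else a

theorem MD_rk1_all (u c : Fin n → Fin n → ℂ) :
    MD (fun i => rk1 (u i) (c i)) = det (Matrix.of fun k l => c k ⬝ᵥ u l) := by
  have h1 : MD (fun i => rk1 (u i) (c i)) =
      det (Matrix.of fun i k => c k i) * det (Matrix.of fun i k => u k i) := by
    rw [MD_sym, Matrix.det_apply', Matrix.det_apply', Finset.sum_mul_sum]
    refine Finset.sum_congr rfl fun r _ => Finset.sum_congr rfl fun p _ => ?_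
    simp only [rk1, Matrix.of_apply, Finset.prod_mul_distrib]
    ring
  rw [h1, ← Matrix.det_transpose (Matrix.of fun i k => c k i), ← Matrix.det_mul]
  congr 1

theorem one_eq_sum : (1 : Matrix (Fin n) (Fin n) ℂ) =
    ∑ x, rk1 (Pi.single x 1) (Pi.single x 1) := by
  ext i j
  rw [Matrix.sum_apply]
  simp only [rk1, Matrix.of_apply, Pi.single_apply, Matrix.one_apply]
  simp

theorem RS_snoc {r : ℕ} (hr : r < n) (u c : Fin r → Fin n → ℂ) (v d : Fin n → ℂ)
    (a : Matrix (Fin n) (Fin n) ℂ) : Function.update (RS u c a) ⟨r, hr⟩ (rk1 v d) =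
      RS (Fin.snoc (α := fun _ => Fin n → ℂ) u v) (Fin.snoc (α := fun _ => Fin n → ℂ) c d) a := by
  funext i
  by_cases h : i = ⟨r, hr⟩
  · subst h
    rw [Function.update_self, RS, dif_pos (by simp)]
    have e : (⟨((⟨r, hr⟩ : Fin n) : ℕ), by simp⟩ : Fin (r + 1)) = Fin.last r := rfl
    rw [e, Fin.snoc_last, Fin.snoc_last]
  · rw [Function.update_of_ne h]
    have hne : (i : ℕ) ≠ r := fun h' => h (Fin.ext h')
    by_cases h1 : (i : ℕ) < r
    · rw [RS, RS, dif_pos h1, dif_pos (by omega)]
      have e : (⟨(i : ℕ), by omega⟩ : Fin (r + 1)) = Fin.castSucc ⟨i, h1⟩ := rfl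
      rw [e, Fin.snoc_castSucc, Fin.snoc_castSucc]
    · rw [RS, RS, dif_neg h1, dif_neg (by omega)]

/-- **Cauchy-Binet** for mixed discriminants, identity matrix -/
theorem MD_CB_one : ∀ (s r : ℕ) (_ : r + s = n) (u c : Fin r → Fin n → ℂ),
    MD (RS u c (1 : Matrix (Fin n) (Fin n) ℂ)) =
      (s.factorial : ℂ) * det (Matrix.of fun k l : Fin r => c k ⬝ᵥ u l) := by
  intro s
  induction s with
  | zero =>
    intro r hr u c
    rw [add_zero] at hr
    subst hr
    have e : RS u c (1 : Matrix (Fin r) (Fin r) ℂ) = fun i => rk1 (u i) (c i) := by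
      funext i
      rw [RS, dif_pos i.2]
    rw [e, MD_rk1_all]
    simp
  | succ s ih =>
    intro r hr u c
    have hrn : r < n := by omega
    have e1 : RS u c (1 : Matrix (Fin n) (Fin n) ℂ) =
        Function.update (RS u c 1) ⟨r, hrn⟩ (∑ x, rk1 (Pi.single x 1) (Pi.single x 1)) := by
      rw [← one_eq_sum]
      funext i
      by_cases h : i = ⟨r, hrn⟩
      · subst h
        rw [Function.update_self, RS, dif_neg (by simp)]
      · rw [Function.update_of_ne h]
    rw [e1, MD_update_sum]
    simp only [RS_snoc hrn, ih (r + 1) (by omega), det_snoc]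
    rw [← Finset.mul_sum, sum_det_sub]
    have hc : ((Fintype.card (Fin n) : ℂ) - Fintype.card (Fin r)) = (s + 1 : ℕ) := by
      rw [Fintype.card_fin, Fintype.card_fin, ← hr]
      push_cast
      ring
    rw [hc, Nat.factorial_succ]
    push_cast
    ring_nf
    rfl

/-- **Cauchy-Binet** for mixed discriminants -/
theorem MD_CB {s r : ℕ} (hr : r + s = n) (u c : Fin r → Fin n → ℂ)
    {a : Matrix (Fin n) (Fin n) ℂ} (ha : a.det ≠ 0) :
    MD (RS u c a) = (s.factorial : ℂ) * a.det *
      det (Matrix.of fun k l : Fin r => c k ⬝ᵥ (a⁻¹.mulVec (u l))) := by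
  have hu : IsUnit a.det := isUnit_iff_ne_zero.2 ha
  have e : RS u c a = fun i => a * RS (fun k => a⁻¹.mulVec (u k)) c 1 i := by
    funext i
    by_cases h : (i : ℕ) < r
    · rw [RS, RS, dif_pos h, dif_pos h]
      have h1 : a * rk1 (a⁻¹.mulVec (u ⟨i, h⟩)) (c ⟨i, h⟩) =
          rk1 (a.mulVec (a⁻¹.mulVec (u ⟨i, h⟩))) (c ⟨i, h⟩) := by
        ext j l
        simp only [rk1, Matrix.mul_apply, Matrix.of_apply]
        rw [Matrix.mulVec, dotProduct, Finset.sum_mul]
        exact Finset.sum_congr rfl fun x _ => by ring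
      rw [h1, Matrix.mulVec_mulVec, Matrix.mul_nonsing_inv a hu, Matrix.one_mulVec]
    · rw [RS, RS, dif_neg h, dif_neg h, mul_one]
  rw [e, MD_mul_left, MD_CB_one s r hr]
  ring

end Vale.Agent.P284.H650
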