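import Vale.Agent.P284.H650.FlatPt

/-!
# P284, block A'': the flat inequality

For `f` a test function, `φ : ℂ^q → ℝ` smooth and bounded by `B`:
`|∫ Re (c ∂_j φ (F)) |Ω_A ∧ ∂f|²| ≤ B |c| (λ ∫ D p² + λ⁻¹ E^{(q-1)}(f) + λ' ∫ m + λ'⁻¹ V_0(f)) / 2`.
-/

open scoped Manifold ContDiff Topology Pointwise ComplexConjugate ComplexOrder Matrix
open Filter Set Metric MeasureTheory

noncomputable section

namespace Vale.Agent.P284.H650

open Vale.Agent.P272.K Vale.Agent.P284.H248 Vale.Agent.P284.H894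
  Vale.Agent.P284.H894.V Vale.Agent.P284.H639.V Vale.Agent.P284.H66.S7 Vale.Agent.P284.H402.A

variable {n q : ℕ} {Γ : Type} [Group Γ] {C : Coc n Γ}

theorem Int_smul (P : PU C) (K : KM C) (c : ℝ) (G : Γ → C.I → Cm n → ℝ) :
    Int P K (fun γ a z => c * G γ a z) = c * Int P K G := by
  unfold Vale.Agent.P284.H894.V.Int
  rw [← tsum_mul_left]
  refine tsum_congr fun γ => ?_
  rw [Finset.mul_sum]
  refine Finset.sum_congr rfl fun a _ => ?_
  rw [← integral_const_mul]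
  refine setIntegral_congr_fun measurableSet_ball fun z _ => ?_
  simp only
  ring

theorem Int_abs_le (P : PU C) (K : KM C) {G H : Γ → C.I → Cm n → ℝ} (hG : Fam C G) (hH : Fam C H)
    (h : ∀ γ a, ∀ z ∈ C.V a, |G γ a z| ≤ H γ a z) : |Int P K G| ≤ Int P K H := by
  have h3 := H913.V.v3Stmt
  rw [abs_le]
  constructor
  · have h1 : Fam C (fun γ a z => (-1) * H γ a z + 0 * H γ a z) := fam_lin hH hH (-1) 0
    have h2 := h3.mono C P K _ G h1 hG fun γ a z hz => by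
      have := (abs_le.1 (h γ a z hz)).1
      linarith
    rw [h3.lin C P K H H (-1) 0 hH hH] at h2
    linarith
  · exact h3.mono C P K G H hG hH fun γ a z hz => (le_abs_self _).trans (h γ a z hz)

theorem Int_nonneg' (h3 : V3Stmt) (P : PU C) (K : KM C) {G : Γ → C.I → Cm n → ℝ} (hG : Fam C G)
    (h : ∀ γ a, ∀ z ∈ C.V a, 0 ≤ G γ a z) : 0 ≤ Int P K G := by
  have h1 := h3.lin C P K _ _ 0 0 hG hG
  have h2 : Fam C (fun γ a z => 0 * G γ a z + 0 * G γ a z) := fam_lin hG hG 0 0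
  have h4 := h3.mono C P K _ G h2 hG fun γ a z hz => by
    have := h γ a z hz
    simpa using this
  rw [h1] at h4
  linarith

section
variable {P : PU C} {K : KM C} {θ : HF C q} {F : Γ → C.I → Cm n → Cm q}
  {f : Γ → C.I → Cm n → ℝ} {φ : Cm q → ℝ}

theorem det_vol (K : KM C) {a : C.I} {z : Cm n} (hz : z ∈ C.Ω a) :
    (K.w a z).det = ((vol (K.w a) z : ℝ) : ℂ) := by
  have h := (w_pos K hz).det_pos
  have him : (K.w a z).det.im = 0 := ((Complex.lt_def.1 h).2).symm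
  rw [vol]
  exact Complex.ext (by simp) (by simp [him])

/-- the left side of the flat identity -/
theorem LD_eq (hθ : ∀ γ a, ∀ z ∈ C.Ω a, θ.th a z = (JF (F γ a) z)ᵀ) {s : ℕ} (hs : q + 1 + s = n)
    (hq : q < n) (c : Γ → C.I → Cm n → ℂ) (γ : Γ) {a : C.I} {z : Cm n} (hz : z ∈ C.Ω a) :
    LD K F hq c f f γ a z = (s.factorial : ℝ) * ((c γ a z).re * vA K θ 0 f f γ a z) := by
  have hw := w_pos K hz
  have hv := vol_pos K hz
  have hA := H279.a2Stmt.herm (K.w a z) (JF (F γ a) z)ᵀ 0 hw le_rfl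
  have e1 : dzbv (f γ a) z = star (dzv (f γ a) z) := by
    rw [dzbv_eq]; rfl
  set ξ := dzv (f γ a) z with hξ
  have e2 : vA K θ 0 f f γ a z = qf (AA (K.w a z) (JF (F γ a) z)ᵀ 0) ξ ξ := by
    rw [vA, hθ γ a z hz]; rfl
  have e3 : star ξ ⬝ᵥ AA (K.w a z) (JF (F γ a) z)ᵀ 0 *ᵥ ξ =
      ((qf (AA (K.w a z) (JF (F γ a) z)ᵀ 0) ξ ξ : ℝ) : ℂ) := by
    have h1 := hA.dotProduct_mulVec_nonneg ξ
    rw [qf]
    exact Complex.ext (by simp) (by simpa using ((Complex.le_def.1 h1).2).symm)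
  rw [LD, gg, e1, MD_Xb_rk1 hw _ hs hq, e2, det_vol K hz, e3]
  set Q := qf (AA (K.w a z) (JF (F γ a) z)ᵀ 0) ξ ξ
  set v := vol (K.w a) z
  have e4 : c γ a z * ((s.factorial : ℂ) * (v : ℂ) * (Q : ℂ)) =
      (((s.factorial : ℝ) * v * Q : ℝ) : ℂ) * c γ a z := by
    push_cast; ring
  rw [e4, Complex.re_ofReal_mul]
  field_simp

/-- the right side of the flat identity -/
theorem RD_le (hθ : ∀ γ a, ∀ z ∈ C.Ω a, θ.th a z = (JF (F γ a) z)ᵀ) {s : ℕ} (hs : q + 1 + s = n)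
    (hq : q < n) (j : Fin q) (c : ℂ) (hf : IsTst C f) {l l' : ℝ} (hl : 0 < l) (hl' : 0 < l') (γ : Γ)
    {a : C.I} {z : Cm n} (hz : z ∈ C.Ω a) :
    |RD K F hq j c f f γ a z| ≤ (s.factorial : ℝ) * (‖c‖ *
      ((l * pA K θ f γ a z + l⁻¹ * eA K θ f γ a z + l' * bA K θ f γ a z +
        l'⁻¹ * vA K θ 0 f f γ a z) / 2)) := by
  have hw := w_pos K hz
  have hv := vol_pos K hz
  set ξ := dzv (f γ a) z with hξ
  set x := cHess (f γ a) z with hx
  have hxh : x.IsHermitian := herm_f hf γ hz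
  have t1 := pt1 hw (θ.th a z) hxh ξ j hl
  have t2 := pt2 hw (θ.th a z) hxh ξ j hl'
  have hp : pA K θ f γ a z = tr1 (AA (K.w a z) (θ.th a z) 0) x ^ 2 /
      DD (K.w a z) (θ.th a z) 0 := rfl
  have he : eA K θ f γ a z = ee (K.w a z) (θ.th a z) ξ := rfl
  have hb : bA K θ f γ a z = tr2 (AA (K.w a z) (θ.th a z) 0) (BB (K.w a z) (θ.th a z)) x := rfl
  have hvA : vA K θ 0 f f γ a z = qf (AA (K.w a z) (θ.th a z) 0) ξ ξ := rfl
  rw [RD, MD_Xj hw _ hs hq, det_vol K hz, ← hθ γ a z hz, hp, he, hb, hvA]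
  set v := vol (K.w a) z
  set A1 := (RR (K.w a z) (θ.th a z) *ᵥ ξ) j * (AA (K.w a z) (θ.th a z) 0 * x).trace
  set A2 := (RR (K.w a z) (θ.th a z) *ᵥ (x *ᵥ (AA (K.w a z) (θ.th a z) 0 *ᵥ ξ))) j
  have e4 : c * ((s.factorial : ℂ) * (v : ℂ) * (A1 - A2)) =
      (((s.factorial : ℝ) * v : ℝ) : ℂ) * (c * (A1 - A2)) := by
    push_cast; ring
  rw [e4, Complex.re_ofReal_mul]
  have e5 : (s.factorial : ℝ) * v * (c * (A1 - A2)).re / v =
      (s.factorial : ℝ) * (c * (A1 - A2)).re := by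
    field_simp
  rw [e5, abs_mul, abs_of_nonneg (by positivity : (0 : ℝ) ≤ (s.factorial : ℝ))]
  refine mul_le_mul_of_nonneg_left ?_ (by positivity)
  refine (Complex.abs_re_le_norm _).trans ?_
  rw [norm_mul]
  refine mul_le_mul_of_nonneg_left ?_ (norm_nonneg c)
  refine (norm_sub_le _ _).trans ?_
  linarith

/-- **The flat inequality.** -/
theorem flat_le (P : PU C) (hF : HolF C F)
    (hθ : ∀ γ a, ∀ z ∈ C.Ω a, θ.th a z = (JF (F γ a) z)ᵀ)
    (hq : q < n) (hφ : ContDiff ℝ ∞ φ) {B : ℝ} (hB : ∀ t, |φ t| ≤ B) (j : Fin q) (c : ℂ)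
    (hf : IsTst C f) {m : Γ → C.I → Cm n → ℝ} (hm : Fam C m)
    (hbm : ∀ γ a, ∀ z ∈ C.Ω a, bA K θ f γ a z ≤ m γ a z) {l l' : ℝ} (hl : 0 < l) (hl' : 0 < l') :
    |Int P K (fun γ a z => (c * dz j (fun t => (φ t : ℂ)) (F γ a z)).re * vA K θ 0 f f γ a z)| ≤
      B * ‖c‖ * ((l * Int P K (pA K θ f) + l⁻¹ * Int P K (eA K θ f) + l' * Int P K m +
        l'⁻¹ * en P K θ 0 f f) / 2) := by
  obtain ⟨s, hs⟩ : ∃ s, q + 1 + s = n := ⟨n - (q + 1), by omega⟩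
  have h3 := H913.V.v3Stmt
  have hB0 : 0 ≤ B := (abs_nonneg _).trans (hB 0)
  have h1 := flat_id (K := K) P hF hq hφ j c hf.smF hf
  have e1 : Int P K (LD K F hq (fun γ a z => c * dz j (fun t => (φ t : ℂ)) (F γ a z)) f f) =
      (s.factorial : ℝ) * Int P K (fun γ a z =>
        (c * dz j (fun t => (φ t : ℂ)) (F γ a z)).re * vA K θ 0 f f γ a z) := by
    rw [← Int_smul]
    exact Vale.Agent.P284.H639.V.Int_congr P K fun γ a z hz =>
      LD_eq hθ hs hq _ γ (V_sub_Ω C a hz)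
  rw [e1] at h1
  have hs0 : (0 : ℝ) < (s.factorial : ℝ) := by exact_mod_cast s.factorial_pos
  -- the families
  have F1 : Fam C (fun γ a z => l * pA K θ f γ a z + l⁻¹ * eA K θ f γ a z) :=
    fam_lin (fam_pA H279.a2Stmt hf K θ) (fam_eA H279.a2Stmt hf K θ) l l⁻¹
  have F2 : Fam C (fun γ a z => l' * m γ a z + l'⁻¹ * vA K θ 0 f f γ a z) :=
    fam_lin hm (fam_vA hf hf K θ 0) l' l'⁻¹
  set k : ℝ := (s.factorial : ℝ) * (B * ‖c‖ / 2) with hk
  have F3 : Fam C (fun γ a z => k * (l * pA K θ f γ a z + l⁻¹ * eA K θ f γ a z) +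
      k * (l' * m γ a z + l'⁻¹ * vA K θ 0 f f γ a z)) := fam_lin F1 F2 k k
  have F4 : Fam C (fun γ a z => φ (F γ a z) * RD K F hq j c f f γ a z) :=
    IA_fam (K := K) (X := fun i γ a z => Xj (K.w a z) (JF (F γ a) z) j c (dzv (f γ a) z) i)
      (i₀ := ⟨q, hq⟩) (h := fun γ a z => φ (F γ a z)) (f := f)
      (fun i _ => (cf_Xj K hF hf.smF j c i).toSF) (hF.comp hφ) hf.smF (Or.inr hf)
  have h4 := Int_abs_le P K F4 F3 fun γ a z hz => by
    have hz' := V_sub_Ω C a hz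
    have h5 := RD_le (K := K) hθ hs hq j c hf hl hl' γ hz'
    have h6 := mul_le_mul_of_nonneg_left (hbm γ a z hz') hl'.le
    rw [abs_mul]
    calc |φ (F γ a z)| * |RD K F hq j c f f γ a z| ≤ B * ((s.factorial : ℝ) * (‖c‖ *
        ((l * pA K θ f γ a z + l⁻¹ * eA K θ f γ a z + l' * bA K θ f γ a z +
        l'⁻¹ * vA K θ 0 f f γ a z) / 2))) :=
          mul_le_mul (hB _) h5 (abs_nonneg _) hB0
      _ ≤ B * ((s.factorial : ℝ) * (‖c‖ *
        ((l * pA K θ f γ a z + l⁻¹ * eA K θ f γ a z + l' * m γ a z +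
        l'⁻¹ * vA K θ 0 f f γ a z) / 2))) := by
          gcongr
      _ = _ := by rw [hk]; ring
  rw [← h1, h3.lin C P K _ _ k k F1 F2,
    h3.lin C P K _ _ l l⁻¹ (fam_pA H279.a2Stmt hf K θ) (fam_eA H279.a2Stmt hf K θ),
    h3.lin C P K _ _ l' l'⁻¹ hm (fam_vA hf hf K θ 0), abs_mul, abs_of_pos hs0] at h4
  have h7 : (s.factorial : ℝ) * |Int P K (fun γ a z =>
      (c * dz j (fun t => (φ t : ℂ)) (F γ a z)).re * vA K θ 0 f f γ a z)| ≤
      (s.factorial : ℝ) * (B * ‖c‖ * ((l * Int P K (pA K θ f) + l⁻¹ * Int P K (eA K θ f) +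
        l' * Int P K m + l'⁻¹ * en P K θ 0 f f) / 2)) := by
    refine h4.trans (le_of_eq ?_)
    rw [hk, en]
    ring
  exact le_of_mul_le_mul_left h7 hs0

/-- **The flat inequality for the functions of `APPc`.** -/
theorem flat_app (P : PU C) (hF : HolF C F)
    (hθ : ∀ γ a, ∀ z ∈ C.Ω a, θ.th a z = (JF (F γ a) z)ᵀ)
    (hq : q < n) (hφ : ContDiff ℝ ∞ φ) {B : ℝ} (hB : ∀ t, |φ t| ≤ B) (j : Fin q) (c : ℂ)
    (hf : IsTst C f) {m : Γ → C.I → Cm n → ℝ} (hm : Fam C m)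
    (hbm : ∀ γ a, ∀ z ∈ C.Ω a, 0 ≤ oA K θ f γ a z ∧ 0 ≤ bA K θ f γ a z ∧
      oA K θ f γ a z + bA K θ f γ a z ≤ m γ a z) {s ε c₀ r : ℝ} (hs : 1 ≤ s) (hε : 0 < ε)
    (hr : 0 ≤ r)
    (h : ip P K θ 0 f f + s ^ 2 * Int P K (pA K θ f) +
      ε⁻¹ * (Int P K (eA K θ f) + s * Int P K m + r) ≤ c₀ * (s * en P K θ 0 f f)) :
    |Int P K (fun γ a z => (c * dz j (fun t => (φ t : ℂ)) (F γ a z)).re * vA K θ 0 f f γ a z)| ≤
      B * ‖c‖ * ((3 * c₀ + 1) / 2 * Real.sqrt ε) * en P K θ 0 f f := by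
  have h3 := H913.V.v3Stmt
  have hB0 : 0 ≤ B := (abs_nonneg _).trans (hB 0)
  have hs0 : 0 < s := by linarith
  set V := en P K θ 0 f f with hVd
  have i1 : 0 ≤ ip P K θ 0 f f := Int_nonneg' h3 P K
    (fam_ip hf hf K θ 0) fun γ a z hz => mul_nonneg
      (dD_nonneg H279.a2Stmt K θ le_rfl (V_sub_Ω C a hz)) (mul_self_nonneg _)
  have i2 : 0 ≤ Int P K (pA K θ f) := Int_nonneg' h3 P K
    (fam_pA H279.a2Stmt hf K θ) fun γ a z hz => div_nonneg (sq_nonneg _)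
      (dD_nonneg H279.a2Stmt K θ le_rfl (V_sub_Ω C a hz))
  have i3 : 0 ≤ Int P K (eA K θ f) := Int_nonneg' h3 P K
    (fam_eA H279.a2Stmt hf K θ) fun γ a z hz =>
      (H279.a2Stmt.low (K.w a z) (θ.th a z) 0 (w_pos K (V_sub_Ω C a hz)) le_rfl _).1
  have i4 : 0 ≤ Int P K m := Int_nonneg' h3 P K hm fun γ a z hz => by
    obtain ⟨g1, g2, g3⟩ := hbm γ a z (V_sub_Ω C a hz)
    linarith
  set IP := Int P K (pA K θ f)
  set IE := Int P K (eA K θ f)
  set IM := Int P K m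
  have hεi : 0 < ε⁻¹ := inv_pos.2 hε
  have hsum : 0 ≤ IE + s * IM + r := by positivity
  have k1 : s ^ 2 * IP ≤ c₀ * (s * V) := by
    have := mul_nonneg hεi.le hsum
    linarith
  have k2 : ε⁻¹ * (IE + s * IM + r) ≤ c₀ * (s * V) := by
    have : 0 ≤ s ^ 2 * IP := by positivity
    linarith
  have k3 : IE + s * IM + r ≤ ε * (c₀ * (s * V)) := by
    have := mul_le_mul_of_nonneg_left k2 hε.le
    rwa [← mul_assoc, mul_inv_cancel₀ hε.ne', one_mul] at this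
  have k4 : IE ≤ ε * (c₀ * (s * V)) := by
    have : 0 ≤ s * IM := by positivity
    linarith
  have k5 : IM ≤ ε * (c₀ * V) := by
    have : s * IM ≤ s * (ε * (c₀ * V)) := by
      calc s * IM ≤ ε * (c₀ * (s * V)) := by linarith
        _ = _ := by ring
    exact le_of_mul_le_mul_left this hs0
  have k6 : s * IP ≤ c₀ * V := by
    have : s * (s * IP) ≤ s * (c₀ * V) := by
      calc s * (s * IP) = s ^ 2 * IP := by ring
        _ ≤ c₀ * (s * V) := k1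
        _ = _ := by ring
    exact le_of_mul_le_mul_left this hs0
  have hsq : 0 < Real.sqrt ε := Real.sqrt_pos.2 hε
  have hsq2 : Real.sqrt ε * Real.sqrt ε = ε := Real.mul_self_sqrt hε.le
  have main := flat_le (K := K) P hF hθ hq hφ hB j c hf hm
    (fun γ a z hz => by obtain ⟨g1, g2, g3⟩ := hbm γ a z hz; linarith)
    (l := s * Real.sqrt ε) (l' := (Real.sqrt ε)⁻¹) (by positivity) (by positivity)
  refine main.trans ?_
  rw [mul_assoc (B * ‖c‖)]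
  refine mul_le_mul_of_nonneg_left ?_ (by positivity)
  have q1 : s * Real.sqrt ε * IP ≤ Real.sqrt ε * (c₀ * V) := by
    calc s * Real.sqrt ε * IP = Real.sqrt ε * (s * IP) := by ring
      _ ≤ _ := mul_le_mul_of_nonneg_left k6 hsq.le
  have q2 : (s * Real.sqrt ε)⁻¹ * IE ≤ Real.sqrt ε * (c₀ * V) := by
    calc (s * Real.sqrt ε)⁻¹ * IE ≤ (s * Real.sqrt ε)⁻¹ * (ε * (c₀ * (s * V))) :=
          mul_le_mul_of_nonneg_left k4 (by positivity)
      _ = (s * Real.sqrt ε)⁻¹ * ((s * Real.sqrt ε) * (Real.sqrt ε * (c₀ * V))) := by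
          congr 1
          linear_combination (-(c₀ * s * V)) * hsq2
      _ = _ := by rw [← mul_assoc, inv_mul_cancel₀ (by positivity), one_mul]
  have q3 : (Real.sqrt ε)⁻¹ * IM ≤ Real.sqrt ε * (c₀ * V) := by
    calc (Real.sqrt ε)⁻¹ * IM ≤ (Real.sqrt ε)⁻¹ * (ε * (c₀ * V)) :=
          mul_le_mul_of_nonneg_left k5 (by positivity)
      _ = (Real.sqrt ε)⁻¹ * (Real.sqrt ε * (Real.sqrt ε * (c₀ * V))) := by
          rw [← mul_assoc (Real.sqrt ε), hsq2]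
      _ = _ := by rw [← mul_assoc, inv_mul_cancel₀ hsq.ne', one_mul]
  rw [inv_inv]
  calc (s * Real.sqrt ε * IP + (s * Real.sqrt ε)⁻¹ * IE + (Real.sqrt ε)⁻¹ * IM +
        Real.sqrt ε * V) / 2 ≤ (Real.sqrt ε * (c₀ * V) + Real.sqrt ε * (c₀ * V) +
        Real.sqrt ε * (c₀ * V) + Real.sqrt ε * V) / 2 := by linarith
    _ = _ := by ring

end

end Vale.Agent.P284.H650
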