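import Vale.Agent.P284.H650.MixPt
import Vale.Agent.P284.H402.A.Ident
import Vale.Agent.P284.H402.A.Spec2
import Vale.Agent.P284.H279.A2g

/-!
# P284, block A'': pointwise inequalities for the flat inequality
-/

open scoped ComplexConjugate ComplexOrder Matrix

noncomputable section

namespace Vale.Agent.P284.H650

open Matrix Vale.Agent.P284.H402.A

variable {n q : ℕ}

theorem RR_conj {w : Matrix (Fin n) (Fin n) ℂ} (hw : w.PosDef) (θ : Matrix (Fin n) (Fin q) ℂ) :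
    (RR w θ)ᴴ * RR w θ = BB w θ := by
  have h1 : w⁻¹ᴴ = w⁻¹ := hw.inv.isHermitian.eq
  have h2 : (TT w θ 0)ᴴ = TT w θ 0 := by
    rw [TT_zero]
    simp only [conjTranspose_mul, conjTranspose_conjTranspose, h1, Matrix.mul_assoc]
  have h3 : (TT w θ 0)⁻¹ᴴ = (TT w θ 0)⁻¹ := by
    rw [conjTranspose_nonsing_inv, h2]
  rw [RR, BB]
  simp only [conjTranspose_mul, conjTranspose_conjTranspose, h1, h3, Matrix.mul_assoc]

theorem norm_sq_sum {m : Type*} [Fintype m] (a : m → ℂ) : star a ⬝ᵥ a = ((∑ i, ‖a i‖ ^ 2 : ℝ) : ℂ) := by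
  rw [dotProduct]
  push_cast
  refine Finset.sum_congr rfl fun i _ => ?_
  rw [Pi.star_apply, RCLike.star_def, mul_comm, Complex.mul_conj, Complex.normSq_eq_norm_sq]
  push_cast
  rfl

theorem qf_conj (M : Matrix (Fin q) (Fin n) ℂ) (α : Fin n → ℂ) :
    qf (Mᴴ * M) α α = ∑ i, ‖(M *ᵥ α) i‖ ^ 2 := by
  have h : star α ⬝ᵥ (Mᴴ * M) *ᵥ α = star (M *ᵥ α) ⬝ᵥ (M *ᵥ α) := by
    rw [← Matrix.mulVec_mulVec, Matrix.star_mulVec, ← Matrix.dotProduct_mulVec]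
  rw [qf, h, norm_sq_sum, Complex.ofReal_re]

theorem b_le {w : Matrix (Fin n) (Fin n) ℂ} (hw : w.PosDef) (θ : Matrix (Fin n) (Fin q) ℂ)
    (ξ : Fin n → ℂ) (j : Fin q) :
    DD w θ 0 * ‖(RR w θ *ᵥ ξ) j‖ ^ 2 ≤ ee w θ ξ := by
  have hD : 0 ≤ DD w θ 0 := (H279.a2Stmt.DD_nonneg w θ 0 hw le_rfl).1
  refine le_trans (mul_le_mul_of_nonneg_left ?_ hD) (H279.KK_le_ee hw θ ξ)
  have : H279.KK w θ = (RR w θ)ᴴ * RR w θ := (RR_conj hw θ).symm
  rw [this, qf_conj]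
  exact Finset.single_le_sum (f := fun i => ‖(RR w θ *ᵥ ξ) i‖ ^ 2) (fun i _ => by positivity)
    (Finset.mem_univ j)

/-- Cauchy-Schwarz -/
theorem cs_le {A : Matrix (Fin n) (Fin n) ℂ} (hA : A.PosSemidef) (α β : Fin n → ℂ) {l : ℝ}
    (hl : 0 < l) : ‖star β ⬝ᵥ A *ᵥ α‖ ≤ (l * qf A β β + l⁻¹ * qf A α α) / 2 := by
  obtain ⟨C, hC, rfl⟩ := H279.exC hA
  have h0 : C * C = Cᴴ * C := by rw [hC.isHermitian.eq]
  rw [h0, qf_conj, qf_conj]
  have h1 : star β ⬝ᵥ (Cᴴ * C) *ᵥ α = star (C *ᵥ β) ⬝ᵥ (C *ᵥ α) := by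
    rw [← Matrix.mulVec_mulVec, Matrix.star_mulVec, ← Matrix.dotProduct_mulVec]
  rw [h1, dotProduct, Finset.mul_sum, Finset.mul_sum, ← Finset.sum_add_distrib, Finset.sum_div]
  refine (norm_sum_le _ _).trans (Finset.sum_le_sum fun i _ => ?_)
  rw [norm_mul, Pi.star_apply, norm_star]
  set a := ‖(C *ᵥ β) i‖
  set b := ‖(C *ᵥ α) i‖
  have h2 : 0 ≤ (Real.sqrt l * a - (Real.sqrt l)⁻¹ * b) ^ 2 := sq_nonneg _
  have h3 : Real.sqrt l * (Real.sqrt l)⁻¹ = 1 := mul_inv_cancel₀ (Real.sqrt_pos.2 hl).ne'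
  have h4 : Real.sqrt l ^ 2 = l := Real.sq_sqrt hl.le
  have h5 : (Real.sqrt l)⁻¹ ^ 2 = l⁻¹ := by rw [inv_pow, h4]
  have h6 : (Real.sqrt l * a - (Real.sqrt l)⁻¹ * b) ^ 2 =
      Real.sqrt l ^ 2 * a ^ 2 + (Real.sqrt l)⁻¹ ^ 2 * b ^ 2 -
        2 * (Real.sqrt l * (Real.sqrt l)⁻¹) * (a * b) := by ring
  rw [h6, h3, h4, h5] at h2
  linarith

theorem pt1 {w : Matrix (Fin n) (Fin n) ℂ} (hw : w.PosDef) (θ : Matrix (Fin n) (Fin q) ℂ)
    {x : Matrix (Fin n) (Fin n) ℂ} (hx : x.IsHermitian) (ξ : Fin n → ℂ) (j : Fin q) {l : ℝ}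
    (hl : 0 < l) : ‖(RR w θ *ᵥ ξ) j * (AA w θ 0 * x).trace‖ ≤
      (l * (tr1 (AA w θ 0) x ^ 2 / DD w θ 0) + l⁻¹ * ee w θ ξ) / 2 := by
  have hee : 0 ≤ ee w θ ξ := (H279.a2Stmt.low w θ 0 hw le_rfl ξ).1
  have hA := H279.a2Stmt.herm w θ 0 hw le_rfl
  have htr : ‖(AA w θ 0 * x).trace‖ = |tr1 (AA w θ 0) x| := by
    have h1 : conj (AA w θ 0 * x).trace = (AA w θ 0 * x).trace := by
      have h2 : conj (AA w θ 0 * x).trace = ((AA w θ 0 * x)ᴴ).trace := by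
        rw [Matrix.trace_conjTranspose]; rfl
      rw [h2, Matrix.conjTranspose_mul, hx.eq, hA.isHermitian.eq, Matrix.trace_mul_comm]
    have h3 := Complex.conj_eq_iff_re.1 h1
    rw [tr1, ← h3, Complex.norm_real, Complex.ofReal_re, Real.norm_eq_abs]
  rcases ((H279.a2Stmt.DD_nonneg w θ 0 hw le_rfl).1).eq_or_lt with hD | hD
  · rw [H279.a2Stmt.zero w θ hw hD.symm]
    simp only [Matrix.zero_mul, Matrix.trace_zero, mul_zero, norm_zero]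
    rw [← hD, div_zero, mul_zero, zero_add]
    positivity
  · rw [norm_mul, htr]
    set b := ‖(RR w θ *ᵥ ξ) j‖
    set t := tr1 (AA w θ 0) x
    have hb : DD w θ 0 * b ^ 2 ≤ ee w θ ξ := b_le hw θ ξ j
    have h1 : l⁻¹ * (DD w θ 0 * b ^ 2) ≤ l⁻¹ * ee w θ ξ :=
      mul_le_mul_of_nonneg_left hb (inv_pos.2 hl).le
    have h2 : b * |t| ≤ (l * (t ^ 2 / DD w θ 0) + l⁻¹ * (DD w θ 0 * b ^ 2)) / 2 := by
      set D := DD w θ 0
      have hs : 0 < Real.sqrt (l / D) := Real.sqrt_pos.2 (div_pos hl hD)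
      have h3 : Real.sqrt (l / D) ^ 2 = l / D := Real.sq_sqrt (div_pos hl hD).le
      have h4 : (Real.sqrt (l / D))⁻¹ ^ 2 = D / l := by rw [inv_pow, h3, inv_div]
      have h5 : Real.sqrt (l / D) * (Real.sqrt (l / D))⁻¹ = 1 := mul_inv_cancel₀ hs.ne'
      have h6 : 0 ≤ (Real.sqrt (l / D) * |t| - (Real.sqrt (l / D))⁻¹ * b) ^ 2 := sq_nonneg _
      have h7 : (Real.sqrt (l / D) * |t| - (Real.sqrt (l / D))⁻¹ * b) ^ 2 =
          l / D * t ^ 2 + D / l * b ^ 2 - 2 * (b * |t|) := by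
        calc (Real.sqrt (l / D) * |t| - (Real.sqrt (l / D))⁻¹ * b) ^ 2 =
            Real.sqrt (l / D) ^ 2 * |t| ^ 2 + (Real.sqrt (l / D))⁻¹ ^ 2 * b ^ 2 -
              2 * (Real.sqrt (l / D) * (Real.sqrt (l / D))⁻¹) * (b * |t|) := by ring
          _ = _ := by rw [h3, h4, h5, sq_abs]; ring
      have h8 : l * (t ^ 2 / D) + l⁻¹ * (D * b ^ 2) = l / D * t ^ 2 + D / l * b ^ 2 := by ring
      rw [h8]
      linarith
    linarith

theorem pt2 {w : Matrix (Fin n) (Fin n) ℂ} (hw : w.PosDef) (θ : Matrix (Fin n) (Fin q) ℂ)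
    {x : Matrix (Fin n) (Fin n) ℂ} (hx : x.IsHermitian) (ξ : Fin n → ℂ) (j : Fin q) {l : ℝ}
    (hl : 0 < l) : ‖(RR w θ *ᵥ (x *ᵥ (AA w θ 0 *ᵥ ξ))) j‖ ≤
      (l * tr2 (AA w θ 0) (BB w θ) x + l⁻¹ * qf (AA w θ 0) ξ ξ) / 2 := by
  have hA := H279.a2Stmt.herm w θ 0 hw le_rfl
  set A := AA w θ 0 with hAd
  set N : Matrix (Fin q) (Fin n) ℂ := RR w θ * x with hN
  set a : Fin q → Fin n → ℂ := fun j i => star (N j i) with ha
  have e1 : (RR w θ *ᵥ (x *ᵥ (A *ᵥ ξ))) j = star (a j) ⬝ᵥ A *ᵥ ξ := by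
    rw [Matrix.mulVec_mulVec, ← hN, mulVec, dotProduct, dotProduct]
    refine Finset.sum_congr rfl fun i _ => ?_
    simp [ha]
  have e2 : tr2 A (BB w θ) x = ∑ k, qf A (a k) (a k) := by
    have h1 : (A * x * (BB w θ * x)).trace = (N * A * Nᴴ).trace := by
      rw [← RR_conj hw θ, hN, conjTranspose_mul, hx.eq]
      rw [show A * x * ((RR w θ)ᴴ * RR w θ * x) = (A * x * (RR w θ)ᴴ) * (RR w θ * x) by
        simp only [Matrix.mul_assoc], Matrix.trace_mul_comm]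
      simp only [Matrix.mul_assoc]
    rw [tr2, h1, Matrix.trace, Complex.re_sum]
    refine Finset.sum_congr rfl fun k _ => ?_
    rw [Matrix.diag_apply, Matrix.mul_assoc, Matrix.mul_apply, qf, dotProduct]
    congr 1
    refine Finset.sum_congr rfl fun i _ => ?_
    rw [Matrix.mul_apply, mulVec, dotProduct]
    simp [ha, conjTranspose_apply]
  rw [e1, e2]
  refine (cs_le hA ξ (a j) hl).trans ?_
  have h3 : qf A (a j) (a j) ≤ ∑ k, qf A (a k) (a k) :=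
    Finset.single_le_sum (f := fun k => qf A (a k) (a k))
      (fun k _ => hA.re_dotProduct_nonneg (a k)) (Finset.mem_univ j)
  have h4 := mul_le_mul_of_nonneg_left h3 hl.le
  linarith

end Vale.Agent.P284.H650
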