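import Mathlib.LinearAlgebra.Matrix.Determinant.Basic
import Mathlib.LinearAlgebra.Matrix.Adjugate
import Mathlib.LinearAlgebra.Matrix.Hermitian
import Mathlib.LinearAlgebra.Matrix.PosDef
import Mathlib.Data.Complex.Basic

/-!
# P284, block A'': mixed discriminants (wedge products of `(1,1)`-forms at a point)

The wedge product of the forms `i ∑ (X k)_{jl} dz_j ∧ dz̄_l`, `k = 1, …, n`, is
`MD X * ∏ (i dz_j ∧ dz̄_j)`.
-/

noncomputable section

namespace Vale.Agent.P284.H650

open Matrix Equiv

variable {n : ℕ}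

/-- The full mixed discriminant: the wedge product of `n` forms of type `(1,1)` on `ℂⁿ`. -/
def MD (X : Fin n → Matrix (Fin n) (Fin n) ℂ) : ℂ :=
  ∑ s : Perm (Fin n), (Matrix.of fun i j => X (s i) i j).det

/-- `b^k ∧ a^(n-k)` -/
def W0 (k : ℕ) (a b : Matrix (Fin n) (Fin n) ℂ) : ℂ :=
  MD fun i : Fin n => if (i : ℕ) < k then b else a

/-- `x ∧ b^k ∧ a^(n-1-k)` -/
def W1 (k : ℕ) (a b x : Matrix (Fin n) (Fin n) ℂ) : ℂ :=
  MD fun i : Fin n => if (i : ℕ) = 0 then x else if (i : ℕ) ≤ k then b else a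

/-- `x ∧ y ∧ b^k ∧ a^(n-2-k)` -/
def W2 (k : ℕ) (a b x y : Matrix (Fin n) (Fin n) ℂ) : ℂ :=
  MD fun i : Fin n => if (i : ℕ) = 0 then x else if (i : ℕ) = 1 then y else
    if (i : ℕ) ≤ k + 1 then b else a

/-! ### Formulas -/

theorem MD_eq (X : Fin n → Matrix (Fin n) (Fin n) ℂ) :
    MD X = ∑ s : Perm (Fin n), ∑ p : Perm (Fin n), (Perm.sign p : ℂ) * ∏ i, X (s i) (p i) i := by
  unfold MD
  simp only [Matrix.det_apply', Matrix.of_apply]
  rw [Finset.sum_comm]
  conv_rhs => rw [Finset.sum_comm]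
  refine Finset.sum_congr rfl fun p _ => ?_
  refine (Equiv.sum_comp (Equiv.mulRight p)
    (fun s : Perm (Fin n) => (Perm.sign p : ℂ) * ∏ i, X (s i) (p i) i)).symm.trans ?_ |>.symm
  rfl

theorem MD_sym (X : Fin n → Matrix (Fin n) (Fin n) ℂ) :
    MD X = ∑ r : Perm (Fin n), ∑ p : Perm (Fin n),
      ((Perm.sign r : ℂ) * (Perm.sign p : ℂ)) * ∏ k, X k (p k) (r k) := by
  rw [MD_eq]
  rw [← Equiv.sum_comp (Equiv.inv (Perm (Fin n)))]
  refine Finset.sum_congr rfl fun s _ => ?_
  simp only [Equiv.inv_apply]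
  rw [← Equiv.sum_comp (Equiv.mulRight s⁻¹)]
  refine Finset.sum_congr rfl fun p _ => ?_
  simp only [Equiv.coe_mulRight]
  have h1 : ∏ i, X (s⁻¹ i) ((p * s⁻¹) i) i = ∏ k, X k (p k) (s k) := by
    rw [← Equiv.prod_comp s]
    refine Finset.prod_congr rfl fun i _ => ?_
    simp
  rw [h1]
  congr 1
  rw [Perm.sign_mul, Perm.sign_inv]
  push_cast
  ring

theorem MD_comp (X : Fin n → Matrix (Fin n) (Fin n) ℂ) (t : Perm (Fin n)) :
    MD (fun i => X (t i)) = MD X := by
  unfold MD
  rw [← Equiv.sum_comp (Equiv.mulLeft t) (fun s : Perm (Fin n) =>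
    (Matrix.of fun i j => X (s i) i j).det)]
  rfl

theorem MD_transpose (X : Fin n → Matrix (Fin n) (Fin n) ℂ) :
    MD (fun i => (X i).transpose) = MD X := by
  rw [MD_sym, MD_sym, Finset.sum_comm]
  refine Finset.sum_congr rfl fun r _ => Finset.sum_congr rfl fun p _ => ?_
  simp only [Matrix.transpose_apply]
  ring

theorem MD_const (a : Matrix (Fin n) (Fin n) ℂ) : MD (fun _ : Fin n => a) = (n.factorial : ℂ) * a.det := by
  unfold MD
  have : (Matrix.of fun i j => a i j) = a := rfl
  simp only [this, Finset.sum_const, Finset.card_univ, Fintype.card_perm, Fintype.card_fin,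
    nsmul_eq_mul]

theorem MD_mul_right (X : Fin n → Matrix (Fin n) (Fin n) ℂ) (Q : Matrix (Fin n) (Fin n) ℂ) :
    MD (fun i => X i * Q) = MD X * Q.det := by
  unfold MD
  rw [Finset.sum_mul]
  refine Finset.sum_congr rfl fun s _ => ?_
  rw [← Matrix.det_mul]
  congr 1

theorem MD_mul_left (X : Fin n → Matrix (Fin n) (Fin n) ℂ) (Q : Matrix (Fin n) (Fin n) ℂ) :
    MD (fun i => Q * X i) = Q.det * MD X := by
  rw [← MD_transpose]
  have : (fun i => (Q * X i).transpose) = fun i => (X i).transpose * Q.transpose := by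
    funext i; rw [Matrix.transpose_mul]
  rw [this, MD_mul_right (fun i => (X i).transpose), MD_transpose, Matrix.det_transpose, mul_comm]

/-- congruence -/
theorem MD_congr (X : Fin n → Matrix (Fin n) (Fin n) ℂ) (P Q : Matrix (Fin n) (Fin n) ℂ) :
    MD (fun i => P * X i * Q) = P.det * Q.det * MD X := by
  rw [MD_mul_right (fun i => P * X i), MD_mul_left]
  ring

theorem MD_conjTranspose (X : Fin n → Matrix (Fin n) (Fin n) ℂ) :
    MD (fun i => (X i).conjTranspose) = (starRingEnd ℂ) (MD X) := by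
  have h1 : (fun i => (X i).conjTranspose) = fun i => ((X i).map (starRingEnd ℂ)).transpose := by
    funext i; ext j k; rfl
  rw [h1, MD_transpose (fun i => (X i).map (starRingEnd ℂ))]
  unfold MD
  rw [map_sum]
  refine Finset.sum_congr rfl fun s _ => ?_
  rw [RingHom.map_det]
  rfl

/-- the mixed discriminant of Hermitian matrices is real -/
theorem MD_real {X : Fin n → Matrix (Fin n) (Fin n) ℂ} (hX : ∀ i, (X i).IsHermitian) :
    ((MD X).re : ℂ) = MD X := by
  have h := MD_conjTranspose X
  have h2 : (fun i => (X i).conjTranspose) = X := funext fun i => (hX i).eq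
  rw [h2] at h
  exact (Complex.conj_eq_iff_re.1 h.symm)

/-! ### Multilinearity -/

/-- the mixed discriminant as a multilinear map -/
def mdL (n : ℕ) : MultilinearMap ℂ (fun _ : Fin n => Matrix (Fin n) (Fin n) ℂ) ℂ :=
  ∑ r : Perm (Fin n), ∑ p : Perm (Fin n), ((Perm.sign r : ℂ) * (Perm.sign p : ℂ)) •
    (MultilinearMap.mkPiAlgebra ℂ (Fin n) ℂ).compLinearMap
      (fun k => Matrix.entryLinearMap ℂ ℂ (p k) (r k))

theorem mdL_apply (X : Fin n → Matrix (Fin n) (Fin n) ℂ) : mdL n X = MD X := by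
  rw [MD_sym]
  simp only [mdL, _root_.sum_apply, _root_.smul_apply,
    MultilinearMap.compLinearMap_apply, MultilinearMap.mkPiAlgebra_apply,
    Matrix.entryLinearMap_apply, smul_eq_mul]

theorem MD_update_add (X : Fin n → Matrix (Fin n) (Fin n) ℂ) (k : Fin n)
    (x y : Matrix (Fin n) (Fin n) ℂ) : MD (Function.update X k (x + y)) =
      MD (Function.update X k x) + MD (Function.update X k y) := by
  simp only [← mdL_apply]
  exact (mdL n).map_update_add X k x y

theorem MD_update_smul (X : Fin n → Matrix (Fin n) (Fin n) ℂ) (k : Fin n)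
    (c : ℂ) (x : Matrix (Fin n) (Fin n) ℂ) : MD (Function.update X k (c • x)) =
      c * MD (Function.update X k x) := by
  simp only [← mdL_apply]
  exact (mdL n).map_update_smul X k c x

theorem MD_update_zero (X : Fin n → Matrix (Fin n) (Fin n) ℂ) (k : Fin n) :
    MD (Function.update X k 0) = 0 := by
  simp only [← mdL_apply]
  exact (mdL n).map_coord_zero k (Function.update_self k 0 X)

theorem MD_eq_zero {X : Fin n → Matrix (Fin n) (Fin n) ℂ} {k : Fin n} (h : X k = 0) :
    MD X = 0 := by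
  simp only [← mdL_apply]
  exact (mdL n).map_coord_zero k h

theorem MD_update_sum {ι : Type*} (s : Finset ι) (X : Fin n → Matrix (Fin n) (Fin n) ℂ) (k : Fin n)
    (x : ι → Matrix (Fin n) (Fin n) ℂ) : MD (Function.update X k (∑ i ∈ s, x i)) =
      ∑ i ∈ s, MD (Function.update X k (x i)) := by
  simp only [← mdL_apply]
  exact (mdL n).map_update_sum s k x X

/-- the rank one matrix `u_j c_l` -/
def rk1 (u c : Fin n → ℂ) : Matrix (Fin n) (Fin n) ℂ := Matrix.of fun j l => u j * c l

/-- exchange of the left factors of two rank one forms changes the sign -/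
theorem MD_rk1_swap (X : Fin n → Matrix (Fin n) (Fin n) ℂ) {k l : Fin n} (hkl : k ≠ l)
    (u v c d : Fin n → ℂ) :
    MD (Function.update (Function.update X k (rk1 u c)) l (rk1 v d)) =
      - MD (Function.update (Function.update X k (rk1 v c)) l (rk1 u d)) := by
  rw [MD_sym, MD_sym, ← Finset.sum_neg_distrib]
  refine Finset.sum_congr rfl fun r _ => ?_
  rw [← Equiv.sum_comp (Equiv.mulRight (Equiv.swap k l)), ← Finset.sum_neg_distrib]
  refine Finset.sum_congr rfl fun p _ => ?_
  simp only [Equiv.coe_mulRight, Perm.sign_mul, Perm.sign_swap hkl, Perm.coe_mul,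
    Function.comp_apply]
  have hk : k ∈ (Finset.univ : Finset (Fin n)) := Finset.mem_univ k
  have hl : l ∈ (Finset.univ : Finset (Fin n)).erase k :=
    Finset.mem_erase.2 ⟨hkl.symm, Finset.mem_univ l⟩
  rw [← Finset.mul_prod_erase _ _ hk, ← Finset.mul_prod_erase _ _ hl,
    ← Finset.mul_prod_erase _ _ hk, ← Finset.mul_prod_erase _ _ hl]
  simp only [Function.update_self, Function.update_of_ne hkl, Equiv.swap_apply_left,
    Equiv.swap_apply_right, rk1, Matrix.of_apply]
  have h1 : ∏ x ∈ (Finset.univ.erase k).erase l,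
      Function.update (Function.update X k (Matrix.of fun j l => u j * c l)) l
        (Matrix.of fun j l => v j * d l) x (p (Equiv.swap k l x)) (r x) =
      ∏ x ∈ (Finset.univ.erase k).erase l,
      Function.update (Function.update X k (Matrix.of fun j l => v j * c l)) l
        (Matrix.of fun j l => u j * d l) x (p x) (r x) := by
    refine Finset.prod_congr rfl fun x hx => ?_
    have hxl : x ≠ l := Finset.ne_of_mem_erase hx
    have hxk : x ≠ k := Finset.ne_of_mem_erase (Finset.mem_of_mem_erase hx)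
    rw [Function.update_of_ne hxl, Function.update_of_ne hxk, Function.update_of_ne hxl,
      Function.update_of_ne hxk, Equiv.swap_apply_of_ne_of_ne hxk hxl]
  rw [h1]
  push_cast
  ring

end Vale.Agent.P284.H650
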