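import Vale.Agent.P284.H650.MixHol

/-!
# P284, block A'': the flat identity
-/

open scoped Manifold ContDiff Topology Pointwise ComplexConjugate ComplexOrder
open Filter Set Metric MeasureTheory

noncomputable section

namespace Vale.Agent.P284.H650

open Vale.Agent.P272.K Vale.Agent.P284.H248 Vale.Agent.P284.H894
  Vale.Agent.P284.H894.V Vale.Agent.P284.H639.V Vale.Agent.P284.H66.S7

variable {n q : ℕ} {Γ : Type} [Group Γ] {C : Coc n Γ}

/-! ### Algebra -/

theorem rk1_sum_left {ι : Type*} (s : Finset ι) (u : ι → Fin n → ℂ) (c : Fin n → ℂ) :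
    rk1 (∑ i ∈ s, u i) c = ∑ i ∈ s, rk1 (u i) c := by
  ext j l
  simp only [rk1, Matrix.of_apply, Matrix.sum_apply, Finset.sum_apply, Finset.sum_mul]

theorem rk1_smul_left (a : ℂ) (u c : Fin n → ℂ) : rk1 (a • u) c = a • rk1 u c := by
  ext j l
  simp only [rk1, Matrix.of_apply, Matrix.smul_apply, Pi.smul_apply, smul_eq_mul, mul_assoc]

theorem rk1_smul_right (a : ℂ) (u c : Fin n → ℂ) : rk1 u (fun l => a * c l) = a • rk1 u c := by
  ext j l
  simp only [rk1, Matrix.of_apply, Matrix.smul_apply, smul_eq_mul]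
  ring

/-- two forms with the same left factor -/
theorem MD_left_eq (X : Fin n → Matrix (Fin n) (Fin n) ℂ) {k l : Fin n} (hkl : k ≠ l)
    (u c d : Fin n → ℂ) :
    MD (Function.update (Function.update X k (rk1 u c)) l (rk1 u d)) = 0 := by
  have h := MD_rk1_swap X hkl u u c d
  have h2 : (2 : ℂ) * MD (Function.update (Function.update X k (rk1 u c)) l (rk1 u d)) = 0 := by
    linear_combination h
  simpa using h2

/-- the forms `θ_k ∧ θ̄_k` (`k < q`), `w` otherwise -/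
def Xb (w : Matrix (Fin n) (Fin n) ℂ) (J : Matrix (Fin q) (Fin n) ℂ) (i : Fin n) :
    Matrix (Fin n) (Fin n) ℂ :=
  if h : (i : ℕ) < q then rk1 (J ⟨i, h⟩) (fun l => conj (J ⟨i, h⟩ l)) else w

/-- the form `ξ ∧ c θ̄_j` in the place `j` -/
def Xj (w : Matrix (Fin n) (Fin n) ℂ) (J : Matrix (Fin q) (Fin n) ℂ) (j : Fin q) (c : ℂ)
    (ξ : Fin n → ℂ) (i : Fin n) : Matrix (Fin n) (Fin n) ℂ :=
  if (i : ℕ) = j then rk1 ξ (fun l => c * conj (J j l)) else Xb w J i

theorem Xj_eq (w : Matrix (Fin n) (Fin n) ℂ) (J : Matrix (Fin q) (Fin n) ℂ) (j : Fin q) (c : ℂ)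
    (ξ : Fin n → ℂ) (hq : q ≤ n) : Xj w J j c ξ =
      Function.update (Xb w J) (Fin.castLE hq j) (rk1 ξ (fun l => c * conj (J j l))) := by
  funext i
  by_cases h : (i : ℕ) = j
  · have : i = Fin.castLE hq j := Fin.ext h
    subst this
    simp [Xj]
  · have : i ≠ Fin.castLE hq j := fun h' => h (by rw [h']; rfl)
    rw [Function.update_of_ne this, Xj, if_neg h]

theorem Xb_eq (w : Matrix (Fin n) (Fin n) ℂ) (J : Matrix (Fin q) (Fin n) ℂ) (j : Fin q)
    (hq : q ≤ n) : Xb w J =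
      Function.update (Xb w J) (Fin.castLE hq j) (rk1 (J j) (fun l => conj (J j l))) := by
  funext i
  by_cases h : i = Fin.castLE hq j
  · subst h
    rw [Function.update_self, Xb, dif_pos (show ((Fin.castLE hq j : Fin n) : ℕ) < q from j.2)]
    rfl
  · rw [Function.update_of_ne h]

/-- the exchange -/
theorem MD_exchange (w : Matrix (Fin n) (Fin n) ℂ) (J : Matrix (Fin q) (Fin n) ℂ) (j : Fin q)
    (hq : q < n) (c : ℂ) (t : Fin q → ℂ) (ξ η : Fin n → ℂ) :
    c * t j * MD (Function.update (Xb w J) ⟨q, hq⟩ (rk1 ξ η)) =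
      -MD (Function.update (Xj w J j c ξ) ⟨q, hq⟩ (rk1 (∑ p, t p • J p) η)) := by
  set i₀ : Fin n := ⟨q, hq⟩ with hi₀
  set i₁ : Fin n := Fin.castLE hq.le j with hi₁
  have hne : i₁ ≠ i₀ := by
    intro h
    have : (j : ℕ) = q := by simpa [hi₁, hi₀] using congrArg Fin.val h
    exact absurd j.2 (by omega)
  have e1 : Xj w J j c ξ = Function.update (Xb w J) i₁ (rk1 ξ (fun l => c * conj (J j l))) :=
    Xj_eq w J j c ξ hq.le
  rw [e1, MD_rk1_swap (Xb w J) hne ξ (∑ p, t p • J p) _ η, neg_neg]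
  rw [rk1_sum_left, Function.update_comm hne, MD_update_sum, Finset.sum_eq_single j]
  · rw [rk1_smul_left, rk1_smul_right, smul_smul, MD_update_smul, Function.update_comm hne.symm,
      mul_comm c]
    congr 2
    rw [← Xb_eq w J j hq.le]
  · intro p _ hp
    rw [rk1_smul_left, rk1_smul_right, smul_smul, MD_update_smul]
    have hp1 : (Fin.castLE hq.le p : Fin n) ≠ i₁ := by
      intro h
      exact hp (Fin.ext (by simpa [hi₁] using congrArg Fin.val h))
    have hp0 : (Fin.castLE hq.le p : Fin n) ≠ i₀ := by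
      intro h
      have : (p : ℕ) = q := by simpa [hi₀] using congrArg Fin.val h
      exact absurd p.2 (by omega)
    rw [Xb_eq w J p hq.le, Function.update_comm hp0, MD_left_eq _ hp1, mul_zero]
  · intro h
    exact absurd (Finset.mem_univ j) h

/-! ### Families -/

section
variable {F : Γ → C.I → Cm n → Cm q} (K : KM C)

theorem cf_Xb (hF : HolF C F) (i : Fin n) : CF C (fun γ a z => Xb (K.w a z) (JF (F γ a) z) i) := by
  by_cases h : (i : ℕ) < q
  · have e : (fun γ a z => Xb (K.w a z) (JF (F γ a) z) i) =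
        fun γ a z => rk1 (JF (F γ a) z ⟨i, h⟩) (fun l => 1 * conj (JF (F γ a) z ⟨i, h⟩ l)) := by
      funext γ a z
      simp only [Xb, dif_pos h, one_mul]
    rw [e]
    exact CF.rk1 (hF.f10 _) (hF.f01 _ 1)
  · have e : (fun γ a z => Xb (K.w a z) (JF (F γ a) z) i) = fun (_ : Γ) a z => K.w a z := by
      funext γ a z
      simp only [Xb, dif_neg h]
    rw [e]
    exact CF.of_KM K

theorem cf_Xj (hF : HolF C F) {u : Γ → C.I → Cm n → ℝ} (hu : SmF C u) (j : Fin q) (c : ℂ)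
    (i : Fin n) : CF C (fun γ a z => Xj (K.w a z) (JF (F γ a) z) j c (dzv (u γ a) z) i) := by
  by_cases h : (i : ℕ) = j
  · simp only [Xj, if_pos h]
    exact CF.rk1 hu.f10 (hF.f01 _ c)
  · simp only [Xj, if_neg h]
    exact cf_Xb K hF i

/-- the density `c θ ∧ θ̄ ∧ ∂u ∧ ∂̄v ∧ w^{m-1}` -/
def LD (F : Γ → C.I → Cm n → Cm q) (hq : q < n) (c : Γ → C.I → Cm n → ℂ)
    (u v : Γ → C.I → Cm n → ℝ) (γ : Γ) (a : C.I) (z : Cm n) : ℝ :=
  (c γ a z * MD (Function.update (Xb (K.w a z) (JF (F γ a) z)) ⟨q, hq⟩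
    (gg (u γ a) (v γ a) z))).re / vol (K.w a) z

/-- the density `c ∂u ∧ θ̄_j ∧ θ' ∧ θ̄' ∧ ∂∂̄v ∧ w^{m-1}` -/
def RD (F : Γ → C.I → Cm n → Cm q) (hq : q < n) (j : Fin q) (c : ℂ)
    (u v : Γ → C.I → Cm n → ℝ) (γ : Γ) (a : C.I) (z : Cm n) : ℝ :=
  (MD (Function.update (Xj (K.w a z) (JF (F γ a) z) j c (dzv (u γ a) z)) ⟨q, hq⟩
    (cHess (v γ a) z))).re / vol (K.w a) z

theorem Int_neg (P : PU C) (G : Γ → C.I → Cm n → ℝ) :
    Int P K (fun γ a z => -G γ a z) = -Int P K G := by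
  unfold Vale.Agent.P284.H894.V.Int
  rw [← tsum_neg]
  refine tsum_congr fun γ => ?_
  rw [← Finset.sum_neg_distrib]
  refine Finset.sum_congr rfl fun a _ => ?_
  rw [← integral_neg]
  refine setIntegral_congr_fun measurableSet_ball fun z _ => ?_
  simp only
  ring

variable {K}

/-- **The flat identity.** -/
theorem flat_id (P : PU C) (hF : HolF C F) (hq : q < n) {φ : Cm q → ℝ} (hφ : ContDiff ℝ ∞ φ)
    (j : Fin q) (c : ℂ) {u v : Γ → C.I → Cm n → ℝ} (hu : SmF C u) (hv : IsTst C v) :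
    Int P K (LD K F hq (fun γ a z => c * dz j (fun t => (φ t : ℂ)) (F γ a z)) u v) =
      Int P K (fun γ a z => φ (F γ a z) * RD K F hq j c u v γ a z) := by
  set X : Fin n → Γ → C.I → Cm n → Matrix (Fin n) (Fin n) ℂ := fun i γ a z =>
    Xj (K.w a z) (JF (F γ a) z) j c (dzv (u γ a) z) i with hX
  have h1 := glob_ibp (K := K) (i₀ := ⟨q, hq⟩) (X := X) P (fun k _ => cf_Xj K hF hu j c k)
    (hF.comp hφ) hv.smF (Or.inr hv)
  have e1 : IA K X ⟨q, hq⟩ (fun γ a z => φ (F γ a z)) v =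
      fun γ a z => φ (F γ a z) * RD K F hq j c u v γ a z := by
    funext γ a z
    rfl
  rw [e1] at h1
  rw [h1, ← Int_neg K P]
  refine Vale.Agent.P284.H639.V.Int_congr P K fun γ a z hz => ?_
  have hz' := V_sub_Ω C a hz
  rw [LD, IB, gg, gg, MD_exchange (K.w a z) (JF (F γ a) z) j hq c
    (fun p => dz p (fun t => (φ t : ℂ)) (F γ a z)), hF.dzv_comp hφ γ hz', Complex.neg_re, neg_div]

end

end Vale.Agent.P284.H650
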