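import Vale.Agent.P284.H650.MixLoc
import Vale.Agent.P284.H639.V5
import Vale.Agent.P284.H730.VP
import Vale.Agent.P284.H913.V3

/-!
# P284, block A'': Stokes' formula for mixed discriminants on the covering
-/

open scoped Manifold ContDiff Topology Pointwise ComplexConjugate ComplexOrder
open Filter Set Metric MeasureTheory

noncomputable section

namespace Vale.Agent.P284.H650

open Vale.Agent.P272.K Vale.Agent.P284.H248 Vale.Agent.P284.H894
  Vale.Agent.P284.H894.V Vale.Agent.P284.H639.V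

variable {n : ℕ} {Γ : Type} [Group Γ] {C : Coc n Γ}

/-- smooth function on the covering -/
structure SmF (C : Coc n Γ) (f : Γ → C.I → Cm n → ℝ) : Prop where
  smooth : ∀ γ a, ∀ z ∈ C.Ω a, ContDiffAt ℝ ∞ (f γ a) z
  compat : ∀ γ a b, ∀ z ∈ C.O a b, f γ a z = f (γ * C.κ a b z) b (C.T a b z)

/-- smooth form of type `(1,1)` on the covering -/
structure SF (C : Coc n Γ) (β : Γ → C.I → Cm n → Matrix (Fin n) (Fin n) ℂ) : Prop where
  smooth : ∀ γ a, ∀ z ∈ C.Ω a, ∀ i j, ContDiffAt ℝ ∞ (fun y => β γ a y i j) z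
  change : ∀ γ a b, ∀ z ∈ C.O a b, β γ a z =
    (jac C a b z).transpose * β (γ * C.κ a b z) b (C.T a b z) * (jac C a b z).map (starRingEnd ℂ)

/-- smooth form of type `(1,1)` on the covering, closed (under `∂`) -/
structure CF (C : Coc n Γ) (β : Γ → C.I → Cm n → Matrix (Fin n) (Fin n) ℂ) : Prop
    extends SF C β where
  closed : ∀ γ a, ∀ z ∈ C.Ω a, ∀ i k l,
    dz i (fun y => β γ a y k l) z = dz k (fun y => β γ a y i l) z

theorem _root_.Vale.Agent.P284.H894.V.IsTst.smF {f : Γ → C.I → Cm n → ℝ} (hf : IsTst C f) :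
    SmF C f := ⟨hf.smooth, hf.compat⟩

theorem SmF.ev {f : Γ → C.I → Cm n → ℝ} (hf : SmF C f) (γ : Γ) {a b : C.I} {z : Cm n}
    (hz : z ∈ C.O a b) : ∀ᶠ y in 𝓝 z, f γ a y = f (γ * C.κ a b z) b (C.T a b y) := by
  filter_upwards [(C.O_open a b).mem_nhds hz, C.κ_loc a b z hz] with y hy hk
  rw [hf.compat γ a b y hy, hk]

theorem T_ev (C : Coc n Γ) {a b : C.I} {z : Cm n} (hz : z ∈ C.O a b) :
    ∀ᶠ y in 𝓝 z, DifferentiableAt ℂ (C.T a b) y := by
  filter_upwards [(C.O_open a b).mem_nhds hz] with y hy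
  exact (C.T_holo a b).differentiableAt ((C.O_open a b).mem_nhds hy)

theorem SmF.mul {f h : Γ → C.I → Cm n → ℝ} (hf : SmF C f) (hh : SmF C h) :
    SmF C (fun γ a z => f γ a z * h γ a z) where
  smooth γ a z hz := (hf.smooth γ a z hz).mul (hh.smooth γ a z hz)
  compat γ a b z hz := by rw [hf.compat γ a b z hz, hh.compat γ a b z hz]

theorem IsTst_mul_left {f h : Γ → C.I → Cm n → ℝ} (hf : IsTst C f) (hh : SmF C h) :
    IsTst C (fun γ a z => h γ a z * f γ a z) where
  smooth γ a z hz := (hh.smooth γ a z hz).mul (hf.smooth γ a z hz)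
  compat γ a b z hz := by rw [hf.compat γ a b z hz, hh.compat γ a b z hz]
  fin := fin_of hf fun γ a z _ e => by rw [e.self_of_nhds, mul_zero]
  out γ a z hz := by rw [hf.out γ a z hz, mul_zero]

/-! ### Forms -/

theorem CF.of_KM (K : KM C) : CF C (fun _ => K.w) where
  smooth _ a z hz i j := (K.ku a).smooth z hz i j
  change _ a b z hz := K.change a b z hz
  closed _ a z hz i k l := (K.ku a).closed z hz k l i

theorem SmF.cHess {f : Γ → C.I → Cm n → ℝ} (hf : SmF C f) :
    CF C (fun γ a => cHess (f γ a)) where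
  smooth γ a z hz i j := INT.smooth_cHess (hf.smooth γ a z hz) i j
  change γ a b z hz := H730.V.cHess_comp (T_ev C hz) (hf.smooth _ b _ (T_mem_Ω C hz))
    (hf.ev γ hz)
  closed γ a z hz i k l := INT.cHess_closed (hf.smooth γ a z hz) i k l

theorem dzbv_eq (f : Cm n → ℝ) (z : Cm n) : dzbv f z = fun l => conj (dzv f z l) := by
  funext l
  exact H730.V.dzb_dd f l z

theorem dzv_comp {f : Γ → C.I → Cm n → ℝ} (hf : SmF C f) (γ : Γ) {a b : C.I} {z : Cm n}
    (hz : z ∈ C.O a b) : dzv (f γ a) z =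
      (jac C a b z).transpose.mulVec (dzv (f (γ * C.κ a b z) b) (C.T a b z)) :=
  H730.V.dd_comp (T_ev C hz).self_of_nhds
    ((hf.smooth _ b _ (T_mem_Ω C hz)).differentiableAt (by norm_num)) (hf.ev γ hz)

theorem rk1_pull (u c : Fin n → ℂ) (A B : Matrix (Fin n) (Fin n) ℂ) :
    rk1 (A.transpose.mulVec u) (B.transpose.mulVec c) = A.transpose * rk1 u c * B := by
  ext j l
  simp only [rk1, Matrix.of_apply, Matrix.mul_apply, Matrix.mulVec, dotProduct,
    Matrix.transpose_apply]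
  rw [Finset.sum_mul_sum, Finset.sum_comm]
  refine Finset.sum_congr rfl fun q _ => ?_
  rw [Finset.sum_mul]
  refine Finset.sum_congr rfl fun p _ => ?_
  ring

theorem conj_mulVec (A : Matrix (Fin n) (Fin n) ℂ) (u : Fin n → ℂ) (l : Fin n) :
    conj (A.transpose.mulVec u l) =
      (A.map (starRingEnd ℂ)).transpose.mulVec (fun l => conj (u l)) l := by
  simp only [Matrix.mulVec, dotProduct, Matrix.transpose_apply, Matrix.map_apply, map_sum, map_mul]

theorem SF.gg {f h : Γ → C.I → Cm n → ℝ} (hh : SmF C h) (hf : SmF C f) :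
    SF C (fun γ a => gg (h γ a) (f γ a)) where
  smooth γ a z hz i j := smooth_gg (hh.smooth γ a z hz) (hf.smooth γ a z hz) i j
  change γ a b z hz := by
    simp only [H650.gg]
    rw [dzbv_eq, dzbv_eq, dzv_comp hh γ hz, dzv_comp hf γ hz, ← rk1_pull]
    congr 1
    funext l
    exact conj_mulVec _ _ l

theorem SF.add {X Y : Γ → C.I → Cm n → Matrix (Fin n) (Fin n) ℂ} (hX : SF C X) (hY : SF C Y) :
    SF C (fun γ a z => X γ a z + Y γ a z) where
  smooth γ a z hz i j := (hX.smooth γ a z hz i j).add (hY.smooth γ a z hz i j)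
  change γ a b z hz := by
    rw [hX.change γ a b z hz, hY.change γ a b z hz, Matrix.mul_add, Matrix.add_mul]

theorem SF.smul {X : Γ → C.I → Cm n → Matrix (Fin n) (Fin n) ℂ} (hX : SF C X) (c : ℂ) :
    SF C (fun γ a z => c • X γ a z) where
  smooth γ a z hz i j := contDiffAt_const.mul (hX.smooth γ a z hz i j)
  change γ a b z hz := by
    rw [hX.change γ a b z hz, Matrix.mul_smul, Matrix.smul_mul]

theorem CF.add {X Y : Γ → C.I → Cm n → Matrix (Fin n) (Fin n) ℂ} (hX : CF C X) (hY : CF C Y) :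
    CF C (fun γ a z => X γ a z + Y γ a z) where
  toSF := hX.toSF.add hY.toSF
  closed γ a z hz i k l := by
    have h1 := (hX.smooth γ a z hz k l).differentiableAt (by simp)
    have h2 := (hY.smooth γ a z hz k l).differentiableAt (by simp)
    have h3 := (hX.smooth γ a z hz i l).differentiableAt (by simp)
    have h4 := (hY.smooth γ a z hz i l).differentiableAt (by simp)
    change dz i (fun y => X γ a y k l + Y γ a y k l) z = dz k (fun y => X γ a y i l + Y γ a y i l) z
    rw [INT.dz_add h1 h2, INT.dz_add h3 h4, hX.closed γ a z hz i k l, hY.closed γ a z hz i k l]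

theorem CF.smul {X : Γ → C.I → Cm n → Matrix (Fin n) (Fin n) ℂ} (hX : CF C X) (c : ℂ) :
    CF C (fun γ a z => c • X γ a z) where
  toSF := hX.toSF.smul c
  closed γ a z hz i k l := by
    have h1 := (hX.smooth γ a z hz k l).differentiableAt (by simp)
    have h3 := (hX.smooth γ a z hz i l).differentiableAt (by simp)
    change dz i (fun y => c * X γ a y k l) z = dz k (fun y => c * X γ a y i l) z
    rw [INT.dz_const_mul c h1, INT.dz_const_mul c h3, hX.closed γ a z hz i k l]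

/-! ### Densities -/

theorem MD_change {X : Fin n → Γ → C.I → Cm n → Matrix (Fin n) (Fin n) ℂ}
    (hX : ∀ k, SF C (X k)) (γ : Γ) {a b : C.I} {z : Cm n} (hz : z ∈ C.O a b) :
    MD (fun k => X k γ a z) = ((‖(fderiv ℂ (C.T a b) z).det‖ ^ 2 : ℝ) : ℂ) *
      MD (fun k => X k (γ * C.κ a b z) b (C.T a b z)) := by
  have h1 : (fun k => X k γ a z) = fun k => (jac C a b z).transpose *
      X k (γ * C.κ a b z) b (C.T a b z) * (jac C a b z).map (starRingEnd ℂ) :=
    funext fun k => (hX k).change γ a b z hz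
  have h3 : ((jac C a b z).map (starRingEnd ℂ)).det = conj (jac C a b z).det := by
    rw [RingHom.map_det]; rfl
  rw [h1, MD_congr, Matrix.det_transpose, h3, Complex.mul_conj, Complex.normSq_eq_norm_sq]
  congr 3
  rw [H730.V.det_jmat (T_ev C hz).self_of_nhds]
  rfl

theorem vol_change (K : KM C) {a b : C.I} {z : Cm n} (hz : z ∈ C.O a b) :
    vol (K.w a) z = vol (K.w b) (C.T a b z) * ‖(fderiv ℂ (C.T a b) z).det‖ ^ 2 := by
  rw [vol, vol, H730.V.vol_law (K.change a b z hz), H730.V.det_jmat (T_ev C hz).self_of_nhds]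
  rfl

theorem vol_pos (K : KM C) {a : C.I} {z : Cm n} (hz : z ∈ C.Ω a) : 0 < vol (K.w a) z :=
  (H730.V.vpStmt.nonneg (K.w a) (fun _ => 0) z ((K.ku a).pos z hz)).2.2

/-- the quotient of the density `Re (X₁ ∧ … ∧ X_n)` and the volume density of the metric -/
def dens (K : KM C) (X : Fin n → Γ → C.I → Cm n → Matrix (Fin n) (Fin n) ℂ) (γ : Γ) (a : C.I)
    (z : Cm n) : ℝ := (MD fun k => X k γ a z).re / vol (K.w a) z

theorem smooth_MDre {X : Fin n → Γ → C.I → Cm n → Matrix (Fin n) (Fin n) ℂ}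
    (hX : ∀ k, SF C (X k)) (γ : Γ) {a : C.I} {z : Cm n} (hz : z ∈ C.Ω a) :
    ContDiffAt ℝ ∞ (fun y => (MD fun k => X k γ a y).re) z :=
  re_smooth (contDiffAt_MD (X := fun k => X k γ a) fun k i j => (hX k).smooth γ a z hz i j)

theorem smF_dens (K : KM C) {X : Fin n → Γ → C.I → Cm n → Matrix (Fin n) (Fin n) ℂ}
    (hX : ∀ k, SF C (X k)) : SmF C (dens K X) where
  smooth γ a z hz := (smooth_MDre hX γ hz).div (smooth_vol (K.ku a) hz) (vol_pos K hz).ne'
  compat γ a b z hz := by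
    have hpos := vol_pos K (T_mem_Ω C hz)
    have hpos' := vol_pos K (O_sub_Ω C hz)
    rw [vol_change K hz] at hpos'
    simp only [dens]
    rw [MD_change hX γ hz, vol_change K hz, Complex.re_ofReal_mul]
    have hne : ‖(fderiv ℂ (C.T a b) z).det‖ ^ 2 ≠ 0 := by
      intro h0
      rw [h0, mul_zero] at hpos'
      exact lt_irrefl _ hpos'
    rw [mul_comm (vol (K.w b) (C.T a b z)), mul_div_mul_left _ _ hne]

theorem fam_of_smF {G f : Γ → C.I → Cm n → ℝ} (hG : SmF C G) (hf : IsTst C f)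
    (h0 : ∀ γ a, ∀ z ∈ C.V a, f γ a =ᶠ[𝓝 z] (fun _ => 0) → G γ a z = 0) : Fam C G where
  cont γ a z hz := (hG.smooth γ a z hz).continuousAt.continuousWithinAt
  compat := hG.compat
  fin := fin_of hf h0

/-- vanishing of an integral by a partition of unity -/
theorem Int_zero_of_pieces (P : PU C) (K : KM C) {G : Γ → C.I → Cm n → ℝ}
    {Gb : C.I → Γ → C.I → Cm n → ℝ} (hG : ∀ b, Fam C (Gb b))
    (hs : ∀ γ a, ∀ z ∈ C.V a, G γ a z = ∑ b, Gb b γ a z)
    (hsupp : ∀ b γ a, ∀ z ∈ C.Ω a, Gb b γ a z ≠ 0 → z ∈ C.O a b ∧ C.T a b z ∈ P.K b)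
    (hloc : ∀ b γ, ∫ z in C.V b, Gb b γ b z * vol (K.w b) z = 0) : Int P K G = 0 := by
  rw [Int_congr P K hs, Int_sum H913.V.v3Stmt Finset.univ fun b _ => hG b]
  refine Finset.sum_eq_zero fun b _ => ?_
  rw [H913.V.v3Stmt.piece C P K (Gb b) b (P.K b) (hG b) (P.compactK b) (P.K_sub b) (hsupp b)]
  simp only [hloc b, tsum_zero]

/-- replace the form number `i₀` -/
def upd (X : Fin n → Γ → C.I → Cm n → Matrix (Fin n) (Fin n) ℂ) (i₀ : Fin n)
    (Y : Γ → C.I → Cm n → Matrix (Fin n) (Fin n) ℂ) :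
    Fin n → Γ → C.I → Cm n → Matrix (Fin n) (Fin n) ℂ := Function.update X i₀ Y

theorem upd_SF {X : Fin n → Γ → C.I → Cm n → Matrix (Fin n) (Fin n) ℂ} {i₀ : Fin n}
    {Y : Γ → C.I → Cm n → Matrix (Fin n) (Fin n) ℂ} (hX : ∀ k, k ≠ i₀ → SF C (X k))
    (hY : SF C Y) : ∀ k, SF C (upd X i₀ Y k) := by
  intro k
  by_cases h : k = i₀
  · subst h; simpa [upd] using hY
  · simpa [upd, Function.update_of_ne h] using hX k h

theorem upd_apply (X : Fin n → Γ → C.I → Cm n → Matrix (Fin n) (Fin n) ℂ) (i₀ : Fin n)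
    (Y : Γ → C.I → Cm n → Matrix (Fin n) (Fin n) ℂ) (γ : Γ) (a : C.I) (z : Cm n) :
    (fun k => upd X i₀ Y k γ a z) = Function.update (fun k => X k γ a z) i₀ (Y γ a z) := by
  funext k
  by_cases h : k = i₀
  · subst h; simp [upd]
  · simp [upd, Function.update_of_ne h]

end Vale.Agent.P284.H650
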