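import Vale.Agent.P284.H650.MixIbp
import Vale.Agent.P284.H66.S7bLoc

/-!
# P284, block A'': rank one closed forms; functions of a holomorphic map
-/

open scoped Manifold ContDiff Topology Pointwise ComplexConjugate ComplexOrder
open Filter Set Metric MeasureTheory

noncomputable section

namespace Vale.Agent.P284.H650

open Vale.Agent.P272.K Vale.Agent.P284.H248 Vale.Agent.P284.H894
  Vale.Agent.P284.H894.V Vale.Agent.P284.H639.V Vale.Agent.P284.H66.S7

variable {n q : ℕ} {Γ : Type} [Group Γ] {C : Coc n Γ}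

/-- holomorphic map on the covering -/
structure HolF (C : Coc n Γ) (F : Γ → C.I → Cm n → Cm q) : Prop where
  hol : ∀ γ a, DifferentiableOn ℂ (F γ a) (C.Ω a)
  compat : ∀ γ a b, ∀ z ∈ C.O a b, F γ a z = F (γ * C.κ a b z) b (C.T a b z)

/-- closed form of type `(1,0)` -/
structure F10 (C : Coc n Γ) (α : Γ → C.I → Cm n → Fin n → ℂ) : Prop where
  smooth : ∀ γ a, ∀ z ∈ C.Ω a, ∀ i, ContDiffAt ℝ ∞ (fun y => α γ a y i) z
  change : ∀ γ a b, ∀ z ∈ C.O a b, α γ a z =
    (jac C a b z).transpose.mulVec (α (γ * C.κ a b z) b (C.T a b z))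
  closed : ∀ γ a, ∀ z ∈ C.Ω a, ∀ i k,
    dz i (fun y => α γ a y k) z = dz k (fun y => α γ a y i) z

/-- antiholomorphic form of type `(0,1)` -/
structure F01 (C : Coc n Γ) (β : Γ → C.I → Cm n → Fin n → ℂ) : Prop where
  smooth : ∀ γ a, ∀ z ∈ C.Ω a, ∀ i, ContDiffAt ℝ ∞ (fun y => β γ a y i) z
  change : ∀ γ a b, ∀ z ∈ C.O a b, β γ a z =
    ((jac C a b z).map (starRingEnd ℂ)).transpose.mulVec (β (γ * C.κ a b z) b (C.T a b z))
  closed : ∀ γ a, ∀ z ∈ C.Ω a, ∀ i k, dz i (fun y => β γ a y k) z = 0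

theorem CF.rk1 {α β : Γ → C.I → Cm n → Fin n → ℂ} (hα : F10 C α) (hβ : F01 C β) :
    CF C (fun γ a z => rk1 (α γ a z) (β γ a z)) where
  smooth γ a z hz i j := (hα.smooth γ a z hz i).mul (hβ.smooth γ a z hz j)
  change γ a b z hz := by
    rw [hα.change γ a b z hz, hβ.change γ a b z hz, rk1_pull]
  closed γ a z hz i k l := by
    have h1 := fun i => (hα.smooth γ a z hz i).differentiableAt (by simp)
    have h2 := fun i => (hβ.smooth γ a z hz i).differentiableAt (by simp)
    change dz i (fun y => α γ a y k * β γ a y l) z = dz k (fun y => α γ a y i * β γ a y l) z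
    rw [INT.dz_mul (h1 k) (h2 l), INT.dz_mul (h1 i) (h2 l), hβ.closed γ a z hz i l,
      hβ.closed γ a z hz k l, hα.closed γ a z hz i k, mul_zero, mul_zero]

theorem SmF.f10 {u : Γ → C.I → Cm n → ℝ} (hu : SmF C u) : F10 C (fun γ a => dzv (u γ a)) where
  smooth γ a z hz i := INT.smooth_dz (INT.ofReal_contDiffAt (hu.smooth γ a z hz))
  change γ a b z hz := dzv_comp hu γ hz
  closed γ a z hz i k := C2.dz_dz_comm i k
    ((INT.ofReal_contDiffAt (hu.smooth γ a z hz)).of_le two_le)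

section hol
variable {F : Γ → C.I → Cm n → Cm q}

theorem HolF.holV (hF : HolF C F) (γ : Γ) {a : C.I} {z : Cm n} (hz : z ∈ C.Ω a) :
    HolV (F γ a) z := by
  intro j
  filter_upwards [(isOpen_Ω C a).mem_nhds hz] with y hy
  exact differentiableAt_pi.1 ((hF.hol γ a).differentiableAt ((isOpen_Ω C a).mem_nhds hy)) j

theorem HolF.ev (hF : HolF C F) (γ : Γ) {a b : C.I} {z : Cm n} (hz : z ∈ C.O a b) :
    ∀ᶠ y in 𝓝 z, F γ a y = F (γ * C.κ a b z) b (C.T a b y) := by
  filter_upwards [(C.O_open a b).mem_nhds hz, C.κ_loc a b z hz] with y hy hk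
  rw [hF.compat γ a b y hy, hk]

theorem HolF.J_change (hF : HolF C F) (γ : Γ) {a b : C.I} {z : Cm n} (hz : z ∈ C.O a b) :
    JF (F γ a) z = JF (F (γ * C.κ a b z) b) (C.T a b z) * jac C a b z := by
  rw [JF_comp (T := C.T a b) (F' := F (γ * C.κ a b z) b) (T_ev C hz).self_of_nhds
    (hF.holV _ (T_mem_Ω C hz)) (hF.ev γ hz)]
  rfl

theorem HolF.row_change (hF : HolF C F) (γ : Γ) {a b : C.I} {z : Cm n} (hz : z ∈ C.O a b)
    (j : Fin q) : JF (F γ a) z j =
      (jac C a b z).transpose.mulVec (JF (F (γ * C.κ a b z) b) (C.T a b z) j) := by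
  rw [hF.J_change γ hz]
  funext l
  simp only [Matrix.mul_apply, Matrix.mulVec, dotProduct, Matrix.transpose_apply]
  exact Finset.sum_congr rfl fun i _ => mul_comm _ _

theorem HolF.f10 (hF : HolF C F) (j : Fin q) : F10 C (fun γ a z => JF (F γ a) z j) where
  smooth γ a z hz i := ((hF.holV γ hz).J j i).smooth
  change γ a b z hz := hF.row_change γ hz j
  closed γ a z hz i k := C2.dz_dz_comm i k ((hF.holV γ hz j).smooth.of_le two_le)

theorem HolF.f01 (hF : HolF C F) (j : Fin q) (c : ℂ) :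
    F01 C (fun γ a z l => c * conj (JF (F γ a) z j l)) where
  smooth γ a z hz i := contDiffAt_const.mul ((hF.holV γ hz).J j i).smooth_conj
  change γ a b z hz := by
    funext l
    rw [hF.row_change γ hz j, conj_mulVec]
    simp only [Matrix.mulVec, dotProduct, Finset.mul_sum]
    exact Finset.sum_congr rfl fun i _ => by ring
  closed γ a z hz i k := by
    rw [C2.dz_const_mul i c ((hF.holV γ hz).J j k).diff_conj,
      ((hF.holV γ hz).J j k).dz_conj0, mul_zero]

/-- chain rule -/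
theorem dz_comp_hol {G : Cm n → Cm q} {f : Cm q → ℂ} {z : Cm n} (h : DifferentiableAt ℂ G z)
    (hf : DifferentiableAt ℝ f (G z)) (i : Fin n) :
    dz i (fun y => f (G y)) z = ∑ p, dz p f (G z) * dz i (fun y => G y p) z := by
  have h1 : DifferentiableAt ℝ G z := h.restrictScalars ℝ
  have hG : ∀ v : Cm n, fderiv ℝ (fun y => f (G y)) z v = fderiv ℝ f (G z) (fderiv ℂ G z v) := by
    intro v
    rw [show (fun y => f (G y)) = f ∘ G from rfl, fderiv_comp z hf h1]
    simp only [ContinuousLinearMap.comp_apply]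
    rw [Vale.Agent.P272.K.fderivR_of_holo h]
  have h2 : ∀ p, fderiv ℂ G z (Pi.single i Complex.I) p = Complex.I * dz i (fun y => G y p) z := by
    intro p
    have h4 : (Pi.single i Complex.I : Cm n) = Complex.I • (Pi.single i 1 : Cm n) := by
      rw [← Pi.single_smul]; simp
    rw [Vale.Agent.P272.K.dz_of_holo (differentiableAt_pi.1 h p), h4, map_smul, Pi.smul_apply,
      smul_eq_mul, fderiv_apply h p]
    rfl
  have h3 : ∀ p, fderiv ℂ G z (Pi.single i 1) p = dz i (fun y => G y p) z := by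
    intro p
    rw [Vale.Agent.P272.K.dz_of_holo (differentiableAt_pi.1 h p), fderiv_apply h p]
    rfl
  have h0 : dz i (fun y => f (G y)) z = (fderiv ℝ (fun y => f (G y)) z (Pi.single i 1) -
    Complex.I * fderiv ℝ (fun y => f (G y)) z (Pi.single i Complex.I)) / 2 := rfl
  rw [h0, hG, hG, Vale.Agent.P272.K.fderiv_eq, Vale.Agent.P272.K.fderiv_eq]
  simp only [h2, h3]
  rw [Finset.mul_sum, ← Finset.sum_sub_distrib, Finset.sum_div]
  refine Finset.sum_congr rfl fun p _ => ?_
  have h4 : Vale.Agent.P272.K.cj (Complex.I * dz i (fun y => G y p) z) =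
      -Complex.I * Vale.Agent.P272.K.cj (dz i (fun y => G y p) z) := by
    simp [Vale.Agent.P272.K.cj]
  rw [h4]
  linear_combination (-(dz p f (G z)) * dz i (fun y => G y p) z / 2 +
    dzb p f (G z) * Vale.Agent.P272.K.cj (dz i (fun y => G y p) z) / 2) * Complex.I_mul_I

/-- smooth functions of a holomorphic map -/
theorem HolF.comp (hF : HolF C F) {φ : Cm q → ℝ} (hφ : ContDiff ℝ ∞ φ) :
    SmF C (fun γ a z => φ (F γ a z)) where
  smooth γ a z hz := by
    have h1 : ContDiffAt ℝ ∞ (F γ a) z := contDiffAt_pi.2 fun j => (hF.holV γ hz j).smooth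
    exact hφ.contDiffAt.comp z h1
  compat γ a b z hz := by rw [hF.compat γ a b z hz]

theorem HolF.dzv_comp (hF : HolF C F) {φ : Cm q → ℝ} (hφ : ContDiff ℝ ∞ φ) (γ : Γ) {a : C.I}
    {z : Cm n} (hz : z ∈ C.Ω a) : dzv (fun y => φ (F γ a y)) z =
      ∑ p, dz p (fun t => (φ t : ℂ)) (F γ a z) • JF (F γ a) z p := by
  funext i
  have h1 : DifferentiableAt ℂ (F γ a) z := (hF.hol γ a).differentiableAt ((isOpen_Ω C a).mem_nhds hz)
  have h2 : DifferentiableAt ℝ (fun t => (φ t : ℂ)) (F γ a z) :=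
    (INT.ofReal_contDiffAt hφ.contDiffAt).differentiableAt (by simp)
  rw [dzv, dz_comp_hol (f := fun t => (φ t : ℂ)) h1 h2, Finset.sum_apply]
  rfl

end hol

end Vale.Agent.P284.H650
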