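import Vale.Agent.P284.H650.MixGlob

/-!
# P284, block A'': global integration by parts for mixed discriminants on the covering
-/

open scoped Manifold ContDiff Topology Pointwise ComplexConjugate ComplexOrder
open Filter Set Metric MeasureTheory

noncomputable section

namespace Vale.Agent.P284.H650

open Vale.Agent.P272.K Vale.Agent.P284.H248 Vale.Agent.P284.H894
  Vale.Agent.P284.H894.V Vale.Agent.P284.H639.V

variable {n : ℕ} {Γ : Type} [Group Γ] {C : Coc n Γ}

/-! ### Local congruence -/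

theorem dzv_congr {f g : Cm n → ℝ} {z : Cm n} (e : f =ᶠ[𝓝 z] g) : dzv f z = dzv g z := by
  funext j; exact Vale.Agent.P272.K.C2.dz_congr j (ofReal_ev e)

theorem dzbv_congr {f g : Cm n → ℝ} {z : Cm n} (e : f =ᶠ[𝓝 z] g) : dzbv f z = dzbv g z := by
  funext j; exact Vale.Agent.P272.K.C2.dzb_congr j (ofReal_ev e)

theorem gg_congr {f g h k : Cm n → ℝ} {z : Cm n} (e : f =ᶠ[𝓝 z] g) (e' : h =ᶠ[𝓝 z] k) :
    gg f h z = gg g k z := by
  rw [gg, gg, dzv_congr e, dzbv_congr e']

theorem dzv_zero {f : Cm n → ℝ} {z : Cm n} (e : f =ᶠ[𝓝 z] fun _ => 0) : dzv f z = 0 := by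
  rw [dzv_congr e]; funext j; exact Vale.Agent.P272.K.C2.dz_const j _

theorem dzbv_zero {f : Cm n → ℝ} {z : Cm n} (e : f =ᶠ[𝓝 z] fun _ => 0) : dzbv f z = 0 := by
  rw [dzbv_congr e]; funext j; exact Vale.Agent.P272.K.C2.dzb_const j _

theorem gg_zero_left {f h : Cm n → ℝ} {z : Cm n} (e : f =ᶠ[𝓝 z] fun _ => 0) : gg f h z = 0 := by
  ext i j; simp [gg, rk1, dzv_zero e]

theorem gg_zero_right {f h : Cm n → ℝ} {z : Cm n} (e : h =ᶠ[𝓝 z] fun _ => 0) : gg f h z = 0 := by
  ext i j; simp [gg, rk1, dzbv_zero e]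

theorem cHess_zero {f : Cm n → ℝ} {z : Cm n} (e : f =ᶠ[𝓝 z] fun _ => 0) : cHess f z = 0 := by
  rw [Vale.Agent.P272.K.C2.cHess_congr e, Vale.Agent.P272.K.C2.cHess_const]

variable {ι : Type*}

theorem dzv_sum (s : Finset ι) {F : ι → Cm n → ℝ} {z : Cm n}
    (hF : ∀ b ∈ s, ContDiffAt ℝ ∞ (F b) z) :
    dzv (fun y => ∑ b ∈ s, F b y) z = ∑ b ∈ s, dzv (F b) z := by
  funext j
  rw [Finset.sum_apply]
  simp only [dzv]
  rw [← Vale.Agent.P272.K.C2.dz_sum j s (fun b hb => (INT.ofReal_contDiffAt (hF b hb)).differentiableAt (by simp))]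
  congr 1
  ext y
  push_cast
  rfl

theorem dzbv_sum (s : Finset ι) {F : ι → Cm n → ℝ} {z : Cm n}
    (hF : ∀ b ∈ s, ContDiffAt ℝ ∞ (F b) z) :
    dzbv (fun y => ∑ b ∈ s, F b y) z = ∑ b ∈ s, dzbv (F b) z := by
  funext j
  rw [Finset.sum_apply]
  simp only [dzbv]
  rw [← Vale.Agent.P272.K.C2.dzb_sum j s (fun b hb => (INT.ofReal_contDiffAt (hF b hb)).differentiableAt (by simp))]
  congr 1
  ext y
  push_cast
  rfl

theorem gg_sum_left (s : Finset ι) {F : ι → Cm n → ℝ} {h : Cm n → ℝ} {z : Cm n}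
    (hF : ∀ b ∈ s, ContDiffAt ℝ ∞ (F b) z) :
    gg (fun y => ∑ b ∈ s, F b y) h z = ∑ b ∈ s, gg (F b) h z := by
  ext i j
  rw [Matrix.sum_apply]
  simp only [gg, rk1, Matrix.of_apply, dzv_sum s hF, Finset.sum_apply, Finset.sum_mul]

theorem gg_sum_right (s : Finset ι) {F : ι → Cm n → ℝ} {h : Cm n → ℝ} {z : Cm n}
    (hF : ∀ b ∈ s, ContDiffAt ℝ ∞ (F b) z) :
    gg h (fun y => ∑ b ∈ s, F b y) z = ∑ b ∈ s, gg h (F b) z := by
  ext i j
  rw [Matrix.sum_apply]
  simp only [gg, rk1, Matrix.of_apply, dzbv_sum s hF, Finset.sum_apply, Finset.mul_sum]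

/-! ### Integration by parts -/

section
variable (K : KM C) (X : Fin n → Γ → C.I → Cm n → Matrix (Fin n) (Fin n) ℂ) (i₀ : Fin n)

/-- `h ∂∂̄f ∧ X₂ ∧ … ` divided by the volume density -/
def IA (h f : Γ → C.I → Cm n → ℝ) (γ : Γ) (a : C.I) (z : Cm n) : ℝ :=
  h γ a z * ((MD (Function.update (fun k => X k γ a z) i₀ (cHess (f γ a) z))).re / vol (K.w a) z)

/-- `∂h ∧ ∂̄f ∧ X₂ ∧ … ` divided by the volume density -/
def IB (h f : Γ → C.I → Cm n → ℝ) (γ : Γ) (a : C.I) (z : Cm n) : ℝ :=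
  (MD (Function.update (fun k => X k γ a z) i₀ (gg (h γ a) (f γ a) z))).re / vol (K.w a) z

end

variable {K : KM C} {X : Fin n → Γ → C.I → Cm n → Matrix (Fin n) (Fin n) ℂ} {i₀ : Fin n}
  {f h : Γ → C.I → Cm n → ℝ}

theorem IA_smF (hX : ∀ k, k ≠ i₀ → SF C (X k)) (hh : SmF C h) (hf : SmF C f) :
    SmF C (IA K X i₀ h f) := by
  have h1 := hh.mul (smF_dens K (upd_SF hX hf.cHess.toSF))
  have : (fun γ a z => h γ a z * dens K (upd X i₀ fun γ a => cHess (f γ a)) γ a z) =
      IA K X i₀ h f := by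
    funext γ a z
    simp only [dens, IA, upd_apply]
  rwa [this] at h1

theorem IB_smF (hX : ∀ k, k ≠ i₀ → SF C (X k)) (hh : SmF C h) (hf : SmF C f) :
    SmF C (IB K X i₀ h f) := by
  have h1 := smF_dens K (upd_SF hX (SF.gg hh hf))
  have : dens K (upd X i₀ fun γ a => gg (h γ a) (f γ a)) = IB K X i₀ h f := by
    funext γ a z
    simp only [dens, IB, upd_apply]
  rwa [this] at h1

theorem IA_zero_h {γ : Γ} {a : C.I} {z : Cm n} (e : h γ a =ᶠ[𝓝 z] fun _ => 0) :
    IA K X i₀ h f γ a z = 0 := by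
  simp only [IA]; rw [e.self_of_nhds, zero_mul]

theorem IA_zero_f {γ : Γ} {a : C.I} {z : Cm n} (e : f γ a =ᶠ[𝓝 z] fun _ => 0) :
    IA K X i₀ h f γ a z = 0 := by
  simp only [IA]; rw [cHess_zero e, MD_update_zero]; simp

theorem IB_zero_h {γ : Γ} {a : C.I} {z : Cm n} (e : h γ a =ᶠ[𝓝 z] fun _ => 0) :
    IB K X i₀ h f γ a z = 0 := by
  simp only [IB]; rw [gg_zero_left e, MD_update_zero]; simp

theorem IB_zero_f {γ : Γ} {a : C.I} {z : Cm n} (e : f γ a =ᶠ[𝓝 z] fun _ => 0) :
    IB K X i₀ h f γ a z = 0 := by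
  simp only [IB]; rw [gg_zero_right e, MD_update_zero]; simp

theorem IA_fam (hX : ∀ k, k ≠ i₀ → SF C (X k)) (hh : SmF C h) (hf : SmF C f)
    (hc : IsTst C h ∨ IsTst C f) : Fam C (IA K X i₀ h f) := by
  rcases hc with hc | hc
  · exact fam_of_smF (IA_smF hX hh hf) hc fun _ _ _ _ e => IA_zero_h e
  · exact fam_of_smF (IA_smF hX hh hf) hc fun _ _ _ _ e => IA_zero_f e

theorem IB_fam (hX : ∀ k, k ≠ i₀ → SF C (X k)) (hh : SmF C h) (hf : SmF C f)
    (hc : IsTst C h ∨ IsTst C f) : Fam C (IB K X i₀ h f) := by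
  rcases hc with hc | hc
  · exact fam_of_smF (IB_smF hX hh hf) hc fun _ _ _ _ e => IB_zero_h e
  · exact fam_of_smF (IB_smF hX hh hf) hc fun _ _ _ _ e => IB_zero_f e

/-- the local identity for one piece -/
theorem piece_zero (P : PU C) (b : C.I) (γ : Γ) (hX : ∀ k, k ≠ i₀ → CF C (X k))
    (hh : SmF C h) (hf : SmF C f)
    (hc : ∀ z ∉ P.K b, (h γ b =ᶠ[𝓝 z] fun _ => 0) ∨ (f γ b =ᶠ[𝓝 z] fun _ => 0)) :
    ∫ z in C.V b, (IA K X i₀ h f γ b z + IB K X i₀ h f γ b z) * vol (K.w b) z = 0 := by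
  have hV : ∀ z ∈ C.V b, z ∈ C.Ω b := fun z hz => V_sub_Ω C b hz
  obtain ⟨j1, j2, j3⟩ := ibp_loc (X := fun k => X k γ b) (K := P.K b) (f := f γ b) (h := h γ b)
    (U := C.V b) isOpen_ball i₀ (fun k hk z hz => (hX k hk).smooth γ b z (hV z hz))
    (fun k hk z hz => (hX k hk).closed γ b z (hV z hz)) (fun z hz => hf.smooth γ b z (hV z hz))
    (fun z hz => hh.smooth γ b z (hV z hz)) (P.compactK b) (P.K_sub b) hc
  have e : ∫ z in C.V b, (IA K X i₀ h f γ b z + IB K X i₀ h f γ b z) * vol (K.w b) z =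
      ∫ z in C.V b, ((h γ b z : ℂ) * MD (Function.update (fun k => X k γ b z) i₀
        (cHess (f γ b) z)) + MD (Function.update (fun k => X k γ b z) i₀
        (gg (h γ b) (f γ b) z))).re := by
    refine setIntegral_congr_fun measurableSet_ball fun z hz => ?_
    have hv := (vol_pos K (hV z hz)).ne'
    simp only [IA, IB, Complex.add_re, Complex.re_ofReal_mul]
    field_simp
  have j4 : ∫ z in C.V b, ((h γ b z : ℂ) * MD (Function.update (fun k => X k γ b z) i₀
        (cHess (f γ b) z)) + MD (Function.update (fun k => X k γ b z) i₀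
        (gg (h γ b) (f γ b) z))) = 0 := by
    rw [integral_add j1 j2, j3, neg_add_cancel]
  have j5 := Complex.reCLM.integral_comp_comm (Integrable.add j1 j2)
  rw [e]
  simp only [Complex.reCLM_apply, Pi.add_apply] at j5
  rw [j5, j4, Complex.zero_re]

/-- **Integration by parts on the covering.** -/
theorem glob_ibp (P : PU C) (hX : ∀ k, k ≠ i₀ → CF C (X k)) (hh : SmF C h) (hf : SmF C f)
    (hc : IsTst C h ∨ IsTst C f) :
    Int P K (IA K X i₀ h f) = - Int P K (IB K X i₀ h f) := by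
  have hX' : ∀ k, k ≠ i₀ → SF C (X k) := fun k hk => (hX k hk).toSF
  have key : Int P K (fun γ a z => 1 * IA K X i₀ h f γ a z + 1 * IB K X i₀ h f γ a z) = 0 := by
    rcases hc with hc | hc
    · refine Int_zero_of_pieces P K (Gb := fun b γ a z => 1 * IA K X i₀ (cut P b h) f γ a z +
        1 * IB K X i₀ (cut P b h) f γ a z) (fun b => fam_lin
          (IA_fam hX' (isTst_cut P b hc).smF hf (Or.inl (isTst_cut P b hc)))
          (IB_fam hX' (isTst_cut P b hc).smF hf (Or.inl (isTst_cut P b hc))) 1 1) ?_ ?_ ?_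
      · intro γ a z hz
        have hz' := V_sub_Ω C a hz
        have e1 := cut_sum P h γ hz'
        simp only [one_mul, IA, IB]
        rw [gg_congr e1 (EventuallyEq.refl _ (f γ a)),
          gg_sum_left Finset.univ (fun b _ => (isTst_cut P b hc).smooth γ a z hz'),
          MD_update_sum, Finset.sum_add_distrib, ← Finset.sum_mul, e1.self_of_nhds, Complex.re_sum,
          Finset.sum_div]
      · intro b γ a z hz hne
        by_contra hn
        apply hne
        have e := cut_ev P b h γ hz hn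
        simp only [IA_zero_h e, IB_zero_h e]; simp
      · intro b γ
        simp only [one_mul]
        refine piece_zero P b γ hX (isTst_cut P b hc).smF hf fun z hz => Or.inl ?_
        filter_upwards [(P.compactK b).isClosed.isOpen_compl.mem_nhds hz] with y hy
        by_contra h0
        exact hy (cut_supp P b hc γ h0)
    · refine Int_zero_of_pieces P K (Gb := fun b γ a z => 1 * IA K X i₀ h (cut P b f) γ a z +
        1 * IB K X i₀ h (cut P b f) γ a z) (fun b => fam_lin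
          (IA_fam hX' hh (isTst_cut P b hc).smF (Or.inr (isTst_cut P b hc)))
          (IB_fam hX' hh (isTst_cut P b hc).smF (Or.inr (isTst_cut P b hc))) 1 1) ?_ ?_ ?_
      · intro γ a z hz
        have hz' := V_sub_Ω C a hz
        have e1 := cut_sum P f γ hz'
        simp only [one_mul, IA, IB]
        rw [gg_congr (EventuallyEq.refl _ (h γ a)) e1,
          gg_sum_right Finset.univ (fun b _ => (isTst_cut P b hc).smooth γ a z hz'),
          Vale.Agent.P272.K.C2.cHess_congr e1,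
          Vale.Agent.P284.H639.V.cHess_sum Finset.univ
            (fun b _ => (isTst_cut P b hc).smooth γ a z hz'),
          MD_update_sum, MD_update_sum, Finset.sum_add_distrib, Complex.re_sum, Complex.re_sum,
          Finset.sum_div, Finset.sum_div, Finset.mul_sum]
      · intro b γ a z hz hne
        by_contra hn
        apply hne
        have e := cut_ev P b f γ hz hn
        simp only [IA_zero_f e, IB_zero_f e]; simp
      · intro b γ
        simp only [one_mul]
        refine piece_zero P b γ hX hh (isTst_cut P b hc).smF fun z hz => Or.inr ?_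
        filter_upwards [(P.compactK b).isClosed.isOpen_compl.mem_nhds hz] with y hy
        by_contra h0
        exact hy (cut_supp P b hc γ h0)
  rw [H913.V.v3Stmt.lin C P K (IA K X i₀ h f) (IB K X i₀ h f) 1 1
    (IA_fam hX' hh hf hc) (IB_fam hX' hh hf hc)] at key
  linarith

end Vale.Agent.P284.H650
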