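import Vale.Agent.P284.H894.V.Spec
import Vale.Agent.P272.K.INT.Local
import Vale.Agent.P272.K.C2.Mat
import Vale.Agent.P284.H650.MixDefs

/-!
# P284, block A'': Stokes' formula for mixed discriminants in `ℂⁿ`
-/

open scoped ContDiff ComplexOrder ComplexConjugate Topology
open MeasureTheory Set Filter

noncomputable section

namespace Vale.Agent.P284.H650

open Vale.Agent.P272.K Vale.Agent.P284.H894.V

variable {n : ℕ} {U : Set (Cm n)}

/-- the matrix `∂_r a_l` -/
def dmat (a : Cm n → Fin n → ℂ) (z : Cm n) : Matrix (Fin n) (Fin n) ℂ :=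
  Matrix.of fun r l => dz r (fun y => a y l) z

/-- the row `i` is the row `i` of `X (s i)`, or `a` if `s i = i₀` -/
def rowM (X : Fin n → Cm n → Matrix (Fin n) (Fin n) ℂ) (a : Cm n → Fin n → ℂ) (i₀ : Fin n)
    (s : Equiv.Perm (Fin n)) (z : Cm n) : Matrix (Fin n) (Fin n) ℂ :=
  Matrix.of fun i j => if s i = i₀ then a z j else X (s i) z i j

/-- the Piola identity for mixed discriminants -/
theorem div_MD {X : Fin n → Cm n → Matrix (Fin n) (Fin n) ℂ} {a : Cm n → Fin n → ℂ} {z : Cm n}
    (i₀ : Fin n) (hX : ∀ k, k ≠ i₀ → ∀ i j, DifferentiableAt ℝ (fun y => X k y i j) z)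
    (hcl : ∀ k, k ≠ i₀ → ∀ i r l, dz i (fun y => X k y r l) z = dz r (fun y => X k y i l) z)
    (ha : ∀ l, DifferentiableAt ℝ (fun y => a y l) z) :
    ∑ s : Equiv.Perm (Fin n), dz (s.symm i₀) (fun y => (rowM X a i₀ s y).det) z =
      MD (Function.update (fun k => X k z) i₀ (dmat a z)) := by
  classical
  have hd : ∀ (s : Equiv.Perm (Fin n)) i j, DifferentiableAt ℝ (fun y => rowM X a i₀ s y i j) z := by
    intro s i j
    by_cases h : s i = i₀
    · simpa only [rowM, Matrix.of_apply, if_pos h] using ha j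
    · simpa only [rowM, Matrix.of_apply, if_neg h] using hX _ h i j
  set T : Equiv.Perm (Fin n) → Fin n → ℂ := fun s r => ((rowM X a i₀ s z).updateRow r
    (fun l => dz (s.symm i₀) (fun y => rowM X a i₀ s y r l) z)).det with hT
  have h1 : ∀ s : Equiv.Perm (Fin n), dz (s.symm i₀) (fun y => (rowM X a i₀ s y).det) z =
      T s (s.symm i₀) + ∑ r ∈ Finset.univ.erase (s.symm i₀), T s r := by
    intro s
    rw [INT.dz_det (hd s), ← Finset.add_sum_erase _ _ (Finset.mem_univ (s.symm i₀))]
  simp only [h1, Finset.sum_add_distrib]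
  have h2 : ∑ s : Equiv.Perm (Fin n), ∑ r ∈ Finset.univ.erase (s.symm i₀), T s r = 0 := by
    have h3 : ∑ s : Equiv.Perm (Fin n), ∑ r ∈ Finset.univ.erase (s.symm i₀), T s r =
        ∑ p ∈ (Finset.univ : Finset (Equiv.Perm (Fin n))).sigma
          (fun s => Finset.univ.erase (s.symm i₀)), T p.1 p.2 := by
      rw [Finset.sum_sigma]
    rw [h3]
    refine Finset.sum_involution (fun p _ => ⟨(Equiv.swap (p.1.symm i₀) p.2).trans p.1,
      p.1.symm i₀⟩) ?_ ?_ ?_ ?_
    · rintro ⟨s, r⟩ hp
      have hr : r ≠ s.symm i₀ := by simpa using hp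
      have hsr : s r ≠ i₀ := fun h => hr (by rw [← h, Equiv.symm_apply_apply])
      set r' := s.symm i₀ with hr'
      have hsr' : s r' = i₀ := by rw [hr', Equiv.apply_symm_apply]
      set s' := (Equiv.swap r' r).trans s with hs'
      have e1 : s'.symm i₀ = r := by
        rw [hs', Equiv.symm_trans_apply, ← hr', Equiv.symm_swap, Equiv.swap_apply_left]
      have e2 : s' r' = s r := by simp [hs']
      have e3 : s' r = i₀ := by simp [hs', hsr']
      -- the row `r` in `T s r`
      have v1 : (fun l => dz (s.symm i₀) (fun y => rowM X a i₀ s y r l) z) =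
          fun l => dz r' (fun y => X (s r) y r l) z := by
        funext l
        simp only [rowM, Matrix.of_apply, if_neg hsr, ← hr']
      have v2 : (fun l => dz (s'.symm i₀) (fun y => rowM X a i₀ s' y r' l) z) =
          fun l => dz r' (fun y => X (s r) y r l) z := by
        funext l
        simp only [rowM, Matrix.of_apply, e1, e2, if_neg hsr]
        exact hcl _ hsr r r' l
      change T s r + T s' r' = 0
      simp only [hT]
      rw [v1, v2]
      set v := fun l => dz r' (fun y => X (s r) y r l) z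
      have h3 : (rowM X a i₀ s' z).updateRow r' v =
          ((rowM X a i₀ s z).updateRow r v).submatrix (Equiv.swap r' r) id := by
        ext i j
        simp only [Matrix.submatrix_apply, id]
        by_cases hi : i = r'
        · subst hi
          rw [Matrix.updateRow_self, Equiv.swap_apply_left, Matrix.updateRow_self]
        · by_cases hi' : i = r
          · subst hi'
            rw [Matrix.updateRow_ne hi, Equiv.swap_apply_right, Matrix.updateRow_ne hr.symm]
            simp only [rowM, Matrix.of_apply, e3, hsr', if_true]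
          · rw [Matrix.updateRow_ne hi, Equiv.swap_apply_of_ne_of_ne hi hi',
              Matrix.updateRow_ne hi']
            have : s' i = s i := by
              simp [hs', Equiv.swap_apply_of_ne_of_ne hi hi']
            simp only [rowM, Matrix.of_apply, this]
      rw [h3, Matrix.det_permute, Equiv.Perm.sign_swap hr.symm]
      simp
    · rintro ⟨s, r⟩ hp _ h
      have hr : r ≠ s.symm i₀ := by simpa using hp
      have := congrArg Sigma.snd h
      exact hr this.symm
    · rintro ⟨s, r⟩ hp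
      have hr : r ≠ s.symm i₀ := by simpa using hp
      simp only [Finset.mem_sigma, Finset.mem_univ, true_and, Finset.mem_erase, and_true]
      rw [Equiv.symm_trans_apply, Equiv.symm_swap, Equiv.swap_apply_left]
      exact hr.symm
    · rintro ⟨s, r⟩ hp
      have e1 : ((Equiv.swap (s.symm i₀) r).trans s).symm i₀ = r := by
        rw [Equiv.symm_trans_apply, Equiv.symm_swap, Equiv.swap_apply_left]
      simp only [e1]
      congr 1
      ext i
      simp only [Equiv.trans_apply]
      rw [Equiv.swap_comm r, Equiv.swap_apply_self]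
  rw [h2, add_zero]
  unfold MD
  refine Finset.sum_congr rfl fun s _ => ?_
  simp only [hT]
  congr 1
  ext i j
  simp only [Matrix.of_apply]
  by_cases hi : i = s.symm i₀
  · subst hi
    rw [Matrix.updateRow_self, Equiv.apply_symm_apply, Function.update_self]
    simp only [rowM, dmat, Matrix.of_apply, Equiv.apply_symm_apply, if_true]
  · rw [Matrix.updateRow_ne hi]
    have hsi : s i ≠ i₀ := fun h => hi (by rw [← h, Equiv.symm_apply_apply])
    simp only [rowM, Matrix.of_apply, if_neg hsi, Function.update_of_ne hsi]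

theorem contDiffAt_MD {X : Fin n → Cm n → Matrix (Fin n) (Fin n) ℂ} {z : Cm n}
    (hX : ∀ k i j, ContDiffAt ℝ ∞ (fun y => X k y i j) z) :
    ContDiffAt ℝ ∞ (fun y => MD fun k => X k y) z := by
  unfold MD
  exact ContDiffAt.sum fun s _ => INT.contDiffAt_det (k := ∞) fun i j => hX _ _ _

/-- Stokes' formula: for closed `X k`, `k ≠ i₀`, and `a` of compact support,
`∫ X₁ ∧ … ∧ ∂a ∧ … ∧ X_n = 0`. -/
theorem int_MD {X : Fin n → Cm n → Matrix (Fin n) (Fin n) ℂ} {a : Cm n → Fin n → ℂ} {K : Set (Cm n)}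
    (hU : IsOpen U) (i₀ : Fin n)
    (hX : ∀ k, k ≠ i₀ → ∀ z ∈ U, ∀ i j, ContDiffAt ℝ ∞ (fun y => X k y i j) z)
    (hcl : ∀ k, k ≠ i₀ → ∀ z ∈ U, ∀ i r l,
      dz i (fun y => X k y r l) z = dz r (fun y => X k y i l) z)
    (ha : ∀ z ∈ U, ∀ l, ContDiffAt ℝ ∞ (fun y => a y l) z)
    (hK : IsCompact K) (hKU : K ⊆ U) (hout : ∀ z ∉ K, a z = 0) :
    IntegrableOn (fun z => MD (Function.update (fun k => X k z) i₀ (dmat a z))) U ∧
    ∫ z in U, MD (Function.update (fun k => X k z) i₀ (dmat a z)) = 0 := by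
  classical
  set F : Equiv.Perm (Fin n) → Cm n → ℂ := fun s z => (rowM X a i₀ s z).det with hF
  have hF0 : ∀ s z, z ∉ K → F s z = 0 := by
    intro s z hz
    refine Matrix.det_eq_zero_of_row_eq_zero (s.symm i₀) fun l => ?_
    simp only [rowM, Matrix.of_apply, Equiv.apply_symm_apply, if_true, hout z hz]
    rfl
  have hFs : ∀ s, HasCompactSupport (F s) := fun s =>
    HasCompactSupport.intro hK (fun z hz => hF0 s z hz)
  have hFt : ∀ s z, z ∉ K → F s =ᶠ[𝓝 z] fun _ => 0 := by
    intro s z hz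
    filter_upwards [hK.isClosed.isOpen_compl.mem_nhds hz] with y hy
    exact hF0 s y hy
  have hFc : ∀ s, ContDiff ℝ 1 (F s) := by
    intro s
    rw [contDiff_iff_contDiffAt]
    intro z
    by_cases hz : z ∈ K
    · refine (INT.contDiffAt_det (k := ∞) fun i j => ?_).of_le (by exact_mod_cast le_top)
      by_cases h : s i = i₀
      · simpa only [rowM, Matrix.of_apply, if_pos h] using ha z (hKU hz) j
      · simpa only [rowM, Matrix.of_apply, if_neg h] using hX _ h z (hKU hz) i j
    · exact contDiffAt_const.congr_of_eventuallyEq (hFt s z hz)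
  have key : ∀ z ∈ U, MD (Function.update (fun k => X k z) i₀ (dmat a z)) =
      ∑ s, dz (s.symm i₀) (F s) z := by
    intro z hz
    rw [← div_MD i₀ (fun k hk i j => (hX k hk z hz i j).differentiableAt (by simp))
      (fun k hk i r l => hcl k hk z hz i r l) (fun l => (ha z hz l).differentiableAt (by simp))]
  have hcomp : ∀ z, z ∉ U → ∑ s : Equiv.Perm (Fin n), dz (s.symm i₀) (F s) z = 0 := by
    intro z hz
    refine Finset.sum_eq_zero fun s _ => ?_
    rw [INT.dz_congr (hFt s z (fun h => hz (hKU h)))]; simp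
  have hint : ∀ s : Equiv.Perm (Fin n), Integrable (fun z => dz (s.symm i₀) (F s) z) := by
    intro s
    have h1 : Continuous (dz (s.symm i₀) (F s)) := by
      rw [INT.dz_fun_eq]
      have := (hFc s).continuous_fderiv (by norm_num)
      exact continuous_const.mul ((this.clm_apply continuous_const).sub
        (continuous_const.mul (this.clm_apply continuous_const)))
    refine h1.integrable_of_hasCompactSupport (HasCompactSupport.intro hK fun z hz => ?_)
    rw [INT.dz_congr (hFt s z hz)]; simp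
  have hsum : Integrable (fun z => ∑ s : Equiv.Perm (Fin n), dz (s.symm i₀) (F s) z) :=
    integrable_finsetSum _ fun s _ => hint s
  refine ⟨(hsum.integrableOn (s := U)).congr_fun (fun z hz => (key z hz).symm) hU.measurableSet, ?_⟩
  have e1 : ∫ z in U, MD (Function.update (fun k => X k z) i₀ (dmat a z))
      = ∫ z in U, ∑ s : Equiv.Perm (Fin n), dz (s.symm i₀) (F s) z :=
    setIntegral_congr_fun hU.measurableSet fun z hz => by simp only [key z hz]
  have e2 : ∫ z in U, ∑ s : Equiv.Perm (Fin n), dz (s.symm i₀) (F s) z =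
      ∫ z, ∑ s : Equiv.Perm (Fin n), dz (s.symm i₀) (F s) z := by
    apply setIntegral_eq_integral_of_forall_compl_eq_zero
    intro z hz; exact hcomp z hz
  rw [e1, e2, integral_finsetSum _ fun s _ => hint s]
  simp [fun s : Equiv.Perm (Fin n) => INT.integral_dz_eq_zero (hFc s) (hFs s) (s.symm i₀)]

/-! ### Integration by parts -/

/-- the row `(∂_j f)` -/
def dzv (f : Cm n → ℝ) (z : Cm n) : Fin n → ℂ := fun j => dz j (fun y => (f y : ℂ)) z
/-- the row `(∂_l̄ f)` -/
def dzbv (f : Cm n → ℝ) (z : Cm n) : Fin n → ℂ := fun l => dzb l (fun y => (f y : ℂ)) z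

/-- `i ∂h ∧ ∂̄f` -/
def gg (h f : Cm n → ℝ) (z : Cm n) : Matrix (Fin n) (Fin n) ℂ := rk1 (dzv h z) (dzbv f z)

theorem dmat_mul {f h : Cm n → ℝ} {z : Cm n} (hf : ContDiffAt ℝ ∞ f z) (hh : ContDiffAt ℝ ∞ h z) :
    dmat (fun y l => (h y : ℂ) * dzb l (fun x => (f x : ℂ)) y) z =
      (h z : ℂ) • cHess f z + gg h f z := by
  ext r l
  simp only [dmat, gg, rk1, dzv, dzbv, Matrix.of_apply, Matrix.add_apply, Matrix.smul_apply,
    smul_eq_mul]
  rw [INT.dz_mul ((INT.ofReal_contDiffAt hh).differentiableAt (by simp))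
    ((INT.smooth_dzb (INT.ofReal_contDiffAt hf)).differentiableAt (by simp)), INT.cHess_apply]
  ring

theorem smooth_gg {f h : Cm n → ℝ} {z : Cm n} (hh : ContDiffAt ℝ ∞ h z) (hf : ContDiffAt ℝ ∞ f z)
    (i j : Fin n) : ContDiffAt ℝ ∞ (fun y => gg h f y i j) z := by
  simp only [gg, rk1, dzv, dzbv, Matrix.of_apply]
  exact (INT.smooth_dz (INT.ofReal_contDiffAt hh)).mul (INT.smooth_dzb (INT.ofReal_contDiffAt hf))

/-- a continuous function on `U` vanishing off a compact subset is integrable -/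
theorem integrableOn_of_cont {E : Type*} [NormedAddCommGroup E] {F : Cm n → E} {K : Set (Cm n)}
    (hU : IsOpen U) (hK : IsCompact K) (hKU : K ⊆ U) (hF : ContinuousOn F U)
    (hout : ∀ z ∈ U, z ∉ K → F z = 0) : IntegrableOn F U := by
  refine ((hF.mono hKU).integrableOn_compact hK).of_forall_sdiff_eq_zero
    hU.measurableSet fun z hz => ?_
  exact hout z hz.1 hz.2

theorem update_smooth {X : Fin n → Cm n → Matrix (Fin n) (Fin n) ℂ}
    {Y : Cm n → Matrix (Fin n) (Fin n) ℂ} {i₀ : Fin n} {z : Cm n}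
    (hX : ∀ k, k ≠ i₀ → ∀ i j, ContDiffAt ℝ ∞ (fun y => X k y i j) z)
    (hY : ∀ i j, ContDiffAt ℝ ∞ (fun y => Y y i j) z) :
    ContDiffAt ℝ ∞ (fun y => MD (Function.update (fun k => X k y) i₀ (Y y))) z := by
  have h1 : (fun y => MD (Function.update (fun k => X k y) i₀ (Y y))) =
      fun y => MD fun k => (Function.update X i₀ Y) k y := by
    funext y
    congr 1
    funext k
    by_cases h : k = i₀
    · subst h; simp
    · simp [Function.update_of_ne h]
  rw [h1]
  refine contDiffAt_MD fun k i j => ?_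
  by_cases h : k = i₀
  · subst h; simpa using hY i j
  · simpa [Function.update_of_ne h] using hX k h i j

/-- **Integration by parts.** `∫ h ∂∂̄f ∧ X₂ ∧ … = -∫ ∂h ∧ ∂̄f ∧ X₂ ∧ …` for closed `X_k`, if `h ∂̄f` has
compact support in `U`. -/
theorem ibp_loc {X : Fin n → Cm n → Matrix (Fin n) (Fin n) ℂ} {K : Set (Cm n)} {f h : Cm n → ℝ}
    (hU : IsOpen U) (i₀ : Fin n)
    (hX : ∀ k, k ≠ i₀ → ∀ z ∈ U, ∀ i j, ContDiffAt ℝ ∞ (fun y => X k y i j) z)
    (hcl : ∀ k, k ≠ i₀ → ∀ z ∈ U, ∀ i r l,
      dz i (fun y => X k y r l) z = dz r (fun y => X k y i l) z)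
    (hf : ∀ z ∈ U, ContDiffAt ℝ ∞ f z) (hh : ∀ z ∈ U, ContDiffAt ℝ ∞ h z)
    (hK : IsCompact K) (hKU : K ⊆ U)
    (hout : ∀ z ∉ K, (h =ᶠ[𝓝 z] fun _ => 0) ∨ (f =ᶠ[𝓝 z] fun _ => 0)) :
    IntegrableOn (fun z => (h z : ℂ) * MD (Function.update (fun k => X k z) i₀ (cHess f z))) U ∧
    IntegrableOn (fun z => MD (Function.update (fun k => X k z) i₀ (gg h f z))) U ∧
    ∫ z in U, (h z : ℂ) * MD (Function.update (fun k => X k z) i₀ (cHess f z)) =
      -∫ z in U, MD (Function.update (fun k => X k z) i₀ (gg h f z)) := by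
  have hz0 : ∀ z ∉ K, (h z = 0 ∧ gg h f z = 0 ∧ ∀ l, (h z : ℂ) * dzb l (fun x => (f x : ℂ)) z = 0) ∨
      (cHess f z = 0 ∧ gg h f z = 0 ∧ ∀ l, (h z : ℂ) * dzb l (fun x => (f x : ℂ)) z = 0) := by
    intro z hz
    rcases hout z hz with e | e
    · left
      have e' : (fun y => (h y : ℂ)) =ᶠ[𝓝 z] fun _ => 0 := by
        filter_upwards [e] with y hy; simp [hy]
      refine ⟨e.self_of_nhds, ?_, fun l => by rw [e.self_of_nhds]; simp⟩
      ext r l
      simp only [gg, rk1, dzv, dzbv, Matrix.of_apply]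
      rw [INT.dz_congr e']; simp
    · right
      have e' : (fun y => (f y : ℂ)) =ᶠ[𝓝 z] fun _ => 0 := by
        filter_upwards [e] with y hy; simp [hy]
      have hb : ∀ l : Fin n, dzb l (fun x => (f x : ℂ)) z = 0 := fun l => by
        rw [INT.dzb_congr e']; simp
      refine ⟨?_, ?_, fun l => by rw [hb l, mul_zero]⟩
      · rw [C2.cHess_congr e, C2.cHess_const]
      · ext r l
        simp only [gg, rk1, dzv, dzbv, Matrix.of_apply, hb]; simp
  have c1 : ContinuousOn (fun z => (h z : ℂ) * MD (Function.update (fun k => X k z) i₀ (cHess f z))) U :=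
    fun z hz => ((INT.ofReal_contDiffAt (hh z hz)).continuousAt.mul
      (update_smooth (fun k hk => hX k hk z hz)
        (INT.smooth_cHess (hf z hz))).continuousAt).continuousWithinAt
  have c2 : ContinuousOn (fun z => MD (Function.update (fun k => X k z) i₀ (gg h f z))) U :=
    fun z hz => (update_smooth (fun k hk => hX k hk z hz)
        (smooth_gg (hh z hz) (hf z hz))).continuousAt.continuousWithinAt
  have i1 := integrableOn_of_cont hU hK hKU c1 fun z _ hz => by
    rcases hz0 z hz with h1 | h1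
    · rw [h1.1]; simp
    · rw [h1.1, MD_update_zero, mul_zero]
  have i2 := integrableOn_of_cont hU hK hKU c2 fun z _ hz => by
    rcases hz0 z hz with h1 | h1 <;> rw [h1.2.1, MD_update_zero]
  refine ⟨i1, i2, ?_⟩
  obtain ⟨-, s1⟩ := int_MD (a := fun y l => (h y : ℂ) * dzb l (fun x => (f x : ℂ)) y) hU i₀ hX hcl
    (fun z hz l => (INT.ofReal_contDiffAt (hh z hz)).mul
      (INT.smooth_dzb (INT.ofReal_contDiffAt (hf z hz)))) hK hKU
    (fun z hz => funext fun l => by rcases hz0 z hz with h1 | h1 <;> exact h1.2.2 l)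
  have e : ∫ z in U, MD (Function.update (fun k => X k z) i₀
      (dmat (fun y l => (h y : ℂ) * dzb l (fun x => (f x : ℂ)) y) z)) =
      ∫ z in U, ((h z : ℂ) * MD (Function.update (fun k => X k z) i₀ (cHess f z)) +
        MD (Function.update (fun k => X k z) i₀ (gg h f z))) :=
    setIntegral_congr_fun hU.measurableSet fun z hz => by
      simp only [dmat_mul (hf z hz) (hh z hz)]
      rw [MD_update_add, MD_update_smul]
  rw [e, integral_add i1 i2] at s1
  exact eq_neg_of_add_eq_zero_left s1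

/-- `∫ ∂∂̄f ∧ X₂ ∧ … = 0` for `f` of compact support and closed `X_k`. -/
theorem stokes_loc {X : Fin n → Cm n → Matrix (Fin n) (Fin n) ℂ} {f : Cm n → ℝ}
    (hU : IsOpen U) (i₀ : Fin n)
    (hX : ∀ k, k ≠ i₀ → ∀ z ∈ U, ∀ i j, ContDiffAt ℝ ∞ (fun y => X k y i j) z)
    (hcl : ∀ k, k ≠ i₀ → ∀ z ∈ U, ∀ i r l,
      dz i (fun y => X k y r l) z = dz r (fun y => X k y i l) z)
    (hf : TU U f) :
    IntegrableOn (fun z => MD (Function.update (fun k => X k z) i₀ (cHess f z))) U ∧
    ∫ z in U, MD (Function.update (fun k => X k z) i₀ (cHess f z)) = 0 := by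
  obtain ⟨i1, i2, e⟩ := ibp_loc (f := f) (h := fun _ => 1) hU i₀ hX hcl
    (fun z _ => hf.smooth.contDiffAt) (fun z _ => contDiffAt_const) hf.compact hf.supp
    (fun z hz => Or.inr (notMem_tsupport_iff_eventuallyEq.1 hz))
  have h0 : ∀ z, gg (fun _ => 1) f z = 0 := by
    intro z
    ext r l
    simp only [gg, rk1, dzv, dzbv, Matrix.of_apply]
    rw [show (fun _ : Cm n => ((1 : ℝ) : ℂ)) = fun _ => (1 : ℂ) by simp, INT.dz_const]
    simp
  simp only [h0, MD_update_zero, integral_zero, neg_zero, Complex.ofReal_one, one_mul] at e i1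
  exact ⟨i1, e⟩

end Vale.Agent.P284.H650
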