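import Vale.Agent.P284.H650.MixFlat
import Vale.Agent.P284.H650.MixCB
import Vale.Agent.P284.H279.A2Fin

/-!
# P284, block A'': the densities `θ ∧ θ̄ ∧ x ∧ w^{m-1}`
-/

open scoped ComplexConjugate ComplexOrder Matrix

noncomputable section

namespace Vale.Agent.P284.H650

open Matrix Vale.Agent.P284.H402.A

variable {n q : ℕ}

/-- `T⁻¹ θᴴ w⁻¹` -/
def RR (w : Matrix (Fin n) (Fin n) ℂ) (θ : Matrix (Fin n) (Fin q) ℂ) : Matrix (Fin q) (Fin n) ℂ :=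
  (TT w θ 0)⁻¹ * θᴴ * w⁻¹

theorem TT_zero (w : Matrix (Fin n) (Fin n) ℂ) (θ : Matrix (Fin n) (Fin q) ℂ) :
    TT w θ 0 = θᴴ * w⁻¹ * θ := by simp [TT]

theorem Xb_RS (w : Matrix (Fin n) (Fin n) ℂ) (J : Matrix (Fin q) (Fin n) ℂ) :
    Xb w J = RS (fun k => J k) (fun k l => conj (J k l)) w := rfl

theorem Xj_RS (w : Matrix (Fin n) (Fin n) ℂ) (J : Matrix (Fin q) (Fin n) ℂ) (j : Fin q)
    (ξ : Fin n → ℂ) :
    Xj w J j 1 ξ = RS (Function.update (fun k => J k) j ξ) (fun k l => conj (J k l)) w := by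
  funext i
  by_cases h : (i : ℕ) = j
  · have hi : (i : ℕ) < q := by rw [h]; exact j.2
    have e : (⟨(i : ℕ), hi⟩ : Fin q) = j := Fin.ext h
    rw [Xj, if_pos h, RS, dif_pos hi, e, Function.update_self]
    simp only [one_mul]
  · rw [Xj, if_neg h, Xb_RS]
    by_cases hi : (i : ℕ) < q
    · have e : (⟨(i : ℕ), hi⟩ : Fin q) ≠ j := fun h' => h (by rw [← h'])
      rw [RS, RS, dif_pos hi, dif_pos hi, Function.update_of_ne e]
    · rw [RS, RS, dif_neg hi, dif_neg hi]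

/-- bordered Gram determinant -/
theorem det_bord {w : Matrix (Fin n) (Fin n) ℂ} (hw : w.PosDef) (J : Matrix (Fin q) (Fin n) ℂ)
    (ξ η : Fin n → ℂ) :
    det (Matrix.of fun k l : Fin (q + 1) =>
      (Fin.snoc (α := fun _ => Fin n → ℂ) (fun k l => conj (J k l)) η k : Fin n → ℂ) ⬝ᵥ
        (w⁻¹ *ᵥ (Fin.snoc (α := fun _ => Fin n → ℂ) (fun k => J k) ξ l : Fin n → ℂ))) =
      η ⬝ᵥ AA w Jᵀ 0 *ᵥ ξ := by
  have h := H279.a2Stmt.bord w Jᵀ hw ξ (star η)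
  rw [star_star] at h
  rw [h]
  congr 1
  ext k l
  rw [Matrix.of_apply, Matrix.mul_assoc, Matrix.mul_apply, dotProduct]
  refine Finset.sum_congr rfl fun x _ => ?_
  congr 1
  · rw [conjTranspose_apply, Matrix.of_apply]
    refine Fin.lastCases ?_ (fun k => ?_) k
    · rw [Fin.snoc_last, Fin.snoc_last]; simp
    · rw [Fin.snoc_castSucc, Fin.snoc_castSucc]; rfl
  · rw [Matrix.mul_apply, mulVec, dotProduct]
    refine Finset.sum_congr rfl fun y _ => ?_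
    congr 1
    rw [Matrix.of_apply]
    refine Fin.lastCases ?_ (fun k => ?_) l
    · rw [Fin.snoc_last, Fin.snoc_last]
    · rw [Fin.snoc_castSucc, Fin.snoc_castSucc]; rfl

theorem MD_Xb_rk1 {w : Matrix (Fin n) (Fin n) ℂ} (hw : w.PosDef) (J : Matrix (Fin q) (Fin n) ℂ)
    {s : ℕ} (hs : q + 1 + s = n) (hq : q < n) (ξ η : Fin n → ℂ) :
    MD (Function.update (Xb w J) ⟨q, hq⟩ (rk1 ξ η)) =
      (s.factorial : ℂ) * w.det * (η ⬝ᵥ AA w Jᵀ 0 *ᵥ ξ) := by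
  rw [Xb_RS, RS_snoc, MD_CB hs _ _ hw.det_pos.ne', det_bord hw]

/-- linear extension from matrices of rank one -/
theorem eq_sum_rk1 (x : Matrix (Fin n) (Fin n) ℂ) :
    x = ∑ i, ∑ l, x i l • rk1 (Pi.single i 1) (Pi.single l 1) := by
  ext a b
  simp only [Matrix.sum_apply, Matrix.smul_apply, rk1, Matrix.of_apply, Pi.single_apply,
    smul_eq_mul]
  rw [Finset.sum_eq_single a, Finset.sum_eq_single b]
  · simp
  · intro l _ hl; simp [hl.symm]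
  · intro h; exact absurd (Finset.mem_univ _) h
  · intro i _ hi; simp [hi.symm]
  · intro h; exact absurd (Finset.mem_univ _) h

theorem MD_lin (X : Fin n → Matrix (Fin n) (Fin n) ℂ) (k : Fin n) (x : Matrix (Fin n) (Fin n) ℂ) :
    MD (Function.update X k x) =
      ∑ i, ∑ l, x i l * MD (Function.update X k (rk1 (Pi.single i 1) (Pi.single l 1))) := by
  conv_lhs => rw [eq_sum_rk1 x]
  rw [MD_update_sum]
  refine Finset.sum_congr rfl fun i _ => ?_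
  rw [MD_update_sum]
  refine Finset.sum_congr rfl fun l _ => ?_
  rw [MD_update_smul]

theorem MD_Xb {w : Matrix (Fin n) (Fin n) ℂ} (hw : w.PosDef) (J : Matrix (Fin q) (Fin n) ℂ)
    {s : ℕ} (hs : q + 1 + s = n) (hq : q < n) (x : Matrix (Fin n) (Fin n) ℂ) :
    MD (Function.update (Xb w J) ⟨q, hq⟩ x) =
      (s.factorial : ℂ) * w.det * (AA w Jᵀ 0 * x).trace := by
  rw [MD_lin]
  simp only [MD_Xb_rk1 hw J hs hq]
  rw [Matrix.trace, Finset.mul_sum, Finset.sum_comm]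
  refine Finset.sum_congr rfl fun l _ => ?_
  rw [Matrix.diag_apply, Matrix.mul_apply, Finset.mul_sum]
  refine Finset.sum_congr rfl fun i _ => ?_
  simp only [mulVec_single_one, single_one_dotProduct, Matrix.col_apply]
  ring

/-! ### The second formula -/

theorem rk1_add_left (u v c : Fin n → ℂ) : rk1 (u + v) c = rk1 u c + rk1 v c := by
  ext j l
  simp only [rk1, Matrix.of_apply, Matrix.add_apply, Pi.add_apply, add_mul]

theorem Xj_smul (w : Matrix (Fin n) (Fin n) ℂ) (J : Matrix (Fin q) (Fin n) ℂ) (j : Fin q) (c : ℂ)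
    (hq : q < n) (ξ : Fin n → ℂ) (x : Matrix (Fin n) (Fin n) ℂ) :
    MD (Function.update (Xj w J j c ξ) ⟨q, hq⟩ x) =
      c * MD (Function.update (Xj w J j 1 ξ) ⟨q, hq⟩ x) := by
  have hne : Fin.castLE hq.le j ≠ ⟨q, hq⟩ := by
    intro h
    have : (j : ℕ) = q := by simpa using congrArg Fin.val h
    exact absurd j.2 (by omega)
  rw [Xj_eq w J j c ξ hq.le, Xj_eq w J j 1 ξ hq.le, Function.update_comm hne,
    Function.update_comm hne, rk1_smul_right, MD_update_smul]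
  simp only [one_mul]

theorem Xj_swap (w : Matrix (Fin n) (Fin n) ℂ) (J : Matrix (Fin q) (Fin n) ℂ) (j : Fin q)
    (hq : q < n) (ξ v η : Fin n → ℂ) :
    MD (Function.update (Xj w J j 1 ξ) ⟨q, hq⟩ (rk1 v η)) =
      -MD (Function.update (Xj w J j 1 v) ⟨q, hq⟩ (rk1 ξ η)) := by
  have hne : Fin.castLE hq.le j ≠ ⟨q, hq⟩ := by
    intro h
    have : (j : ℕ) = q := by simpa using congrArg Fin.val h
    exact absurd j.2 (by omega)
  rw [Xj_eq w J j 1 ξ hq.le, Xj_eq w J j 1 v hq.le, MD_rk1_swap _ hne]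

/-- two columns proportional to the last basis vector -/
theorem det_two {q : ℕ} (M : Matrix (Fin (q + 1)) (Fin (q + 1)) ℂ) (j : Fin q)
    (h1 : ∀ k : Fin q, M (Fin.castSucc k) (Fin.castSucc j) = 0)
    (h2 : ∀ k : Fin q, M (Fin.castSucc k) (Fin.last q) = 0) : M.det = 0 := by
  by_cases h : M (Fin.last q) (Fin.castSucc j) = 0
  · refine Matrix.det_eq_zero_of_column_eq_zero (Fin.castSucc j) fun i => ?_
    refine Fin.lastCases h (fun k => h1 k) i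
  · refine Matrix.exists_mulVec_eq_zero_iff.1 ⟨fun l => if l = Fin.castSucc j then
      M (Fin.last q) (Fin.last q) else if l = Fin.last q then -M (Fin.last q) (Fin.castSucc j)
      else 0, ?_, ?_⟩
    · intro h0
      have := congrFun h0 (Fin.last q)
      rw [if_neg (Fin.castSucc_lt_last j).ne', if_pos rfl] at this
      exact h (by simpa using this)
    · funext i
      rw [mulVec, dotProduct, Finset.sum_eq_add_of_mem (Fin.castSucc j) (Fin.last q)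
        (Finset.mem_univ _) (Finset.mem_univ _) (Fin.castSucc_lt_last j).ne]
      · rw [if_pos rfl, if_neg (Fin.castSucc_lt_last j).ne', if_pos rfl]
        refine Fin.lastCases ?_ (fun k => ?_) i
        · simp; ring
        · rw [h1, h2]; simp
      · intro c _ hc
        rw [if_neg hc.1, if_neg hc.2, mul_zero]

section
variable {w : Matrix (Fin n) (Fin n) ℂ} (hw : w.PosDef) (J : Matrix (Fin q) (Fin n) ℂ)
include hw

theorem MD_Xj_CB {s : ℕ} (hs : q + 1 + s = n) (hq : q < n) (j : Fin q) (ξ v η : Fin n → ℂ) :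
    MD (Function.update (Xj w J j 1 ξ) ⟨q, hq⟩ (rk1 v η)) = (s.factorial : ℂ) * w.det *
      det (Matrix.of fun k l : Fin (q + 1) =>
      (Fin.snoc (α := fun _ => Fin n → ℂ) (fun k l => conj (J k l)) η k : Fin n → ℂ) ⬝ᵥ
        (w⁻¹ *ᵥ (Fin.snoc (α := fun _ => Fin n → ℂ) (Function.update (fun k => J k) j ξ) v l :
          Fin n → ℂ))) := by
  rw [Xj_RS, RS_snoc, MD_CB hs _ _ hw.det_pos.ne']

theorem MD_Xj_vert {s : ℕ} (hs : q + 1 + s = n) (hq : q < n) (j : Fin q) (ξ v η : Fin n → ℂ)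
    (h1 : ∀ k, (fun l => conj (J k l)) ⬝ᵥ (w⁻¹ *ᵥ ξ) = 0)
    (h2 : ∀ k, (fun l => conj (J k l)) ⬝ᵥ (w⁻¹ *ᵥ v) = 0) :
    MD (Function.update (Xj w J j 1 ξ) ⟨q, hq⟩ (rk1 v η)) = 0 := by
  rw [MD_Xj_CB hw J hs hq, det_two _ j, mul_zero]
  · intro k
    rw [Matrix.of_apply, Fin.snoc_castSucc, Fin.snoc_castSucc, Function.update_self]
    exact h1 k
  · intro k
    rw [Matrix.of_apply, Fin.snoc_castSucc, Fin.snoc_last]
    exact h2 k

theorem MD_Xj_zero {s : ℕ} (hs : q + 1 + s = n) (hq : q < n) (j : Fin q) (ξ v η : Fin n → ℂ)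
    (h0 : (TT w Jᵀ 0).det = 0) :
    MD (Function.update (Xj w J j 1 ξ) ⟨q, hq⟩ (rk1 v η)) = 0 := by
  rw [MD_Xj_CB hw J hs hq]
  obtain ⟨a, ha, hTa⟩ := Matrix.exists_mulVec_eq_zero_iff.2 h0
  have hJa : Jᵀ *ᵥ a = 0 := by
    by_contra h
    have h3 := hw.inv.dotProduct_mulVec_pos h
    have h4 : star (Jᵀ *ᵥ a) ⬝ᵥ (w⁻¹ *ᵥ (Jᵀ *ᵥ a)) = star a ⬝ᵥ (TT w Jᵀ 0 *ᵥ a) := by
      rw [TT_zero, Matrix.star_mulVec, ← Matrix.dotProduct_mulVec, ← Matrix.mulVec_mulVec,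
        ← Matrix.mulVec_mulVec]
    rw [h4, hTa, dotProduct_zero] at h3
    exact lt_irrefl _ h3
  have hdet : det (Matrix.of fun k l : Fin (q + 1) =>
      (Fin.snoc (α := fun _ => Fin n → ℂ) (fun k l => conj (J k l)) η k : Fin n → ℂ) ⬝ᵥ
        (w⁻¹ *ᵥ (Fin.snoc (α := fun _ => Fin n → ℂ) (Function.update (fun k => J k) j ξ) v l :
          Fin n → ℂ))) = 0 := by
    refine Matrix.exists_vecMul_eq_zero_iff.1
      ⟨Fin.snoc (α := fun _ => ℂ) (fun k => conj (a k)) 0, ?_, ?_⟩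
    · intro h
      apply ha
      funext k
      have := congrFun h (Fin.castSucc k)
      rw [Fin.snoc_castSucc] at this
      simpa using this
    · funext l
      rw [vecMul, dotProduct, Fin.sum_univ_castSucc]
      simp only [Fin.snoc_last, zero_mul, add_zero, Fin.snoc_castSucc, Matrix.of_apply]
      set y := w⁻¹ *ᵥ (Fin.snoc (α := fun _ => Fin n → ℂ) (Function.update (fun k => J k) j ξ) v l :
          Fin n → ℂ)
      have h5 : ∀ i, ∑ k, conj (a k) * conj (J k i) = 0 := by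
        intro i
        have := congrFun hJa i
        rw [mulVec, dotProduct] at this
        have h6 := congrArg (starRingEnd ℂ) this
        rw [map_sum] at h6
        simp only [Pi.zero_apply, map_zero, map_mul, Matrix.transpose_apply] at h6
        rw [← h6]
        exact Finset.sum_congr rfl fun k _ => mul_comm _ _
      simp only [dotProduct, Finset.mul_sum]
      rw [Finset.sum_comm]
      refine Finset.sum_eq_zero fun i _ => ?_
      rw [← zero_mul (y i), ← h5 i, Finset.sum_mul]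
      exact Finset.sum_congr rfl fun k _ => by ring
  rw [hdet, mul_zero]

omit hw in
theorem AA_theta (b : Fin q → ℂ) : AA w Jᵀ 0 *ᵥ (Jᵀ *ᵥ b) = 0 := by
  have h : AA w Jᵀ 0 * Jᵀ = 0 := by
    have h1 : w⁻¹ * Jᵀ * (TT w Jᵀ 0).adjugate * Jᵀᴴ * w⁻¹ * Jᵀ =
        (TT w Jᵀ 0).det • (w⁻¹ * Jᵀ) := by
      calc w⁻¹ * Jᵀ * (TT w Jᵀ 0).adjugate * Jᵀᴴ * w⁻¹ * Jᵀ
          = w⁻¹ * Jᵀ * ((TT w Jᵀ 0).adjugate * (Jᵀᴴ * w⁻¹ * Jᵀ)) := by
            simp only [Matrix.mul_assoc]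
        _ = _ := by rw [← TT_zero, Matrix.adjugate_mul, Matrix.mul_smul, Matrix.mul_one]
    rw [AA, Matrix.sub_mul, h1, Matrix.smul_mul, sub_self]
  rw [Matrix.mulVec_mulVec, h, Matrix.zero_mulVec]

omit hw in
theorem vert_zero (hT : (TT w Jᵀ 0).det ≠ 0) (ξ : Fin n → ℂ) (k : Fin q) :
    (fun l => conj (J k l)) ⬝ᵥ (w⁻¹ *ᵥ (ξ - Jᵀ *ᵥ (RR w Jᵀ *ᵥ ξ))) = 0 := by
  have h1 : Jᵀᴴ *ᵥ (w⁻¹ *ᵥ (ξ - Jᵀ *ᵥ (RR w Jᵀ *ᵥ ξ))) = 0 := by
    have h2 : TT w Jᵀ 0 * (TT w Jᵀ 0)⁻¹ = 1 :=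
      Matrix.mul_nonsing_inv _ (isUnit_iff_ne_zero.2 hT)
    rw [Matrix.mulVec_sub, Matrix.mulVec_sub]
    simp only [Matrix.mulVec_mulVec]
    have h3 : Jᵀᴴ * (w⁻¹ * (Jᵀ * RR w Jᵀ)) = Jᵀᴴ * w⁻¹ := by
      calc Jᵀᴴ * (w⁻¹ * (Jᵀ * RR w Jᵀ)) = (Jᵀᴴ * w⁻¹ * Jᵀ) * (TT w Jᵀ 0)⁻¹ * (Jᵀᴴ * w⁻¹) := by
            rw [RR]; simp only [Matrix.mul_assoc]
        _ = _ := by rw [← TT_zero, h2, Matrix.one_mul]
    rw [h3, sub_self]
  exact congrFun h1 k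

theorem MD_Xj_rk1 {s : ℕ} (hs : q + 1 + s = n) (hq : q < n) (j : Fin q) (ξ v η : Fin n → ℂ) :
    MD (Function.update (Xj w J j 1 ξ) ⟨q, hq⟩ (rk1 v η)) = (s.factorial : ℂ) * w.det *
      ((RR w Jᵀ *ᵥ ξ) j * (η ⬝ᵥ AA w Jᵀ 0 *ᵥ v) - (RR w Jᵀ *ᵥ v) j * (η ⬝ᵥ AA w Jᵀ 0 *ᵥ ξ)) := by
  by_cases hT : (TT w Jᵀ 0).det = 0
  · have h0 : DD w Jᵀ 0 = 0 := by rw [DD, hT, Complex.zero_re]
    rw [MD_Xj_zero hw J hs hq j ξ v η hT, H279.a2Stmt.zero w Jᵀ hw h0]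
    simp
  · set b := RR w Jᵀ *ᵥ ξ with hb
    set t := RR w Jᵀ *ᵥ v with ht
    have hθ : ∀ t : Fin q → ℂ, Jᵀ *ᵥ t = ∑ p, t p • J p := by
      intro t
      funext i
      rw [mulVec, dotProduct, Finset.sum_apply]
      exact Finset.sum_congr rfl fun p _ => by rw [Matrix.transpose_apply, mul_comm]; rfl
    have hdec : ∀ y : Fin n → ℂ, y = Jᵀ *ᵥ (RR w Jᵀ *ᵥ y) + (y - Jᵀ *ᵥ (RR w Jᵀ *ᵥ y)) := by
      intro y; abel
    have hAv : AA w Jᵀ 0 *ᵥ (v - Jᵀ *ᵥ t) = AA w Jᵀ 0 *ᵥ v := by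
      rw [Matrix.mulVec_sub, AA_theta J, sub_zero]
    have e1 : MD (Function.update (Xj w J j 1 ξ) ⟨q, hq⟩ (rk1 v η)) =
        MD (Function.update (Xj w J j 1 ξ) ⟨q, hq⟩ (rk1 (Jᵀ *ᵥ t) η)) +
        MD (Function.update (Xj w J j 1 ξ) ⟨q, hq⟩ (rk1 (v - Jᵀ *ᵥ t) η)) := by
      rw [← MD_update_add, ← rk1_add_left, ← hdec v]
    have e2 : MD (Function.update (Xj w J j 1 ξ) ⟨q, hq⟩ (rk1 (Jᵀ *ᵥ t) η)) =
        -(t j * MD (Function.update (Xb w J) ⟨q, hq⟩ (rk1 ξ η))) := by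
      have := MD_exchange w J j hq 1 t ξ η
      rw [hθ]
      linear_combination this
    have e3 : MD (Function.update (Xj w J j 1 ξ) ⟨q, hq⟩ (rk1 (v - Jᵀ *ᵥ t) η)) =
        b j * MD (Function.update (Xb w J) ⟨q, hq⟩ (rk1 (v - Jᵀ *ᵥ t) η)) := by
      have e4 : MD (Function.update (Xj w J j 1 (v - Jᵀ *ᵥ t)) ⟨q, hq⟩ (rk1 ξ η)) =
          MD (Function.update (Xj w J j 1 (v - Jᵀ *ᵥ t)) ⟨q, hq⟩ (rk1 (Jᵀ *ᵥ b) η)) +
          MD (Function.update (Xj w J j 1 (v - Jᵀ *ᵥ t)) ⟨q, hq⟩ (rk1 (ξ - Jᵀ *ᵥ b) η)) := by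
        rw [← MD_update_add, ← rk1_add_left, ← hdec ξ]
      have e5 := MD_exchange w J j hq 1 b (v - Jᵀ *ᵥ t) η
      have e6 := MD_Xj_vert hw J hs hq j (v - Jᵀ *ᵥ t) (ξ - Jᵀ *ᵥ b) η
        (fun k => vert_zero J hT v k) (fun k => vert_zero J hT ξ k)
      rw [Xj_swap, e4, e6, hθ b]
      linear_combination -e5
    rw [e1, e2, e3, MD_Xb_rk1 hw J hs hq, MD_Xb_rk1 hw J hs hq, hAv]
    ring

/-- **The second formula.** -/
theorem MD_Xj {s : ℕ} (hs : q + 1 + s = n) (hq : q < n) (j : Fin q) (c : ℂ) (ξ : Fin n → ℂ)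
    (x : Matrix (Fin n) (Fin n) ℂ) :
    MD (Function.update (Xj w J j c ξ) ⟨q, hq⟩ x) = c * ((s.factorial : ℂ) * w.det *
      ((RR w Jᵀ *ᵥ ξ) j * (AA w Jᵀ 0 * x).trace -
        (RR w Jᵀ *ᵥ (x *ᵥ (AA w Jᵀ 0 *ᵥ ξ))) j)) := by
  rw [Xj_smul, MD_lin]
  congr 1
  simp only [MD_Xj_rk1 hw J hs hq]
  have h1 : (AA w Jᵀ 0 * x).trace = ∑ i, ∑ l, x i l * AA w Jᵀ 0 l i := by
    rw [Matrix.trace, Finset.sum_comm]
    refine Finset.sum_congr rfl fun l _ => ?_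
    rw [Matrix.diag_apply, Matrix.mul_apply]
    exact Finset.sum_congr rfl fun i _ => mul_comm _ _
  have h2 : (RR w Jᵀ *ᵥ (x *ᵥ (AA w Jᵀ 0 *ᵥ ξ))) j =
      ∑ i, ∑ l, x i l * (RR w Jᵀ j i * (AA w Jᵀ 0 *ᵥ ξ) l) := by
    rw [mulVec, dotProduct]
    refine Finset.sum_congr rfl fun i _ => ?_
    rw [mulVec, dotProduct, Finset.mul_sum]
    exact Finset.sum_congr rfl fun l _ => by ring
  rw [h1, h2, Finset.mul_sum, ← Finset.sum_sub_distrib, Finset.mul_sum]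
  refine Finset.sum_congr rfl fun i _ => ?_
  rw [Finset.mul_sum, ← Finset.sum_sub_distrib, Finset.mul_sum]
  refine Finset.sum_congr rfl fun l _ => ?_
  simp only [mulVec_single_one, single_one_dotProduct, Matrix.col_apply]
  ring

end

end Vale.Agent.P284.H650
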