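import Vale.Agent.P284.H279.A2Fin

/-!
# P284, block A'': the density `zz = Σ_h (∏_{k ≠ h} μ_k) |x_{hv}|²`
-/

open scoped ComplexConjugate ComplexOrder Matrix Topology
open Filter

noncomputable section

namespace Vale.Agent.P284.H650

open Matrix Vale.Agent.P284.H402.A

variable {n q : ℕ}

/-- `D tr (P_v x Z x)`, `Z = w⁻¹ θ T⁻² θᴴ w⁻¹`; `0` where `D = 0` -/
def zz (w : Matrix (Fin n) (Fin n) ℂ) (θ : Matrix (Fin n) (Fin q) ℂ)
    (x : Matrix (Fin n) (Fin n) ℂ) : ℝ :=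
  tr2 (AA w θ 0) (w⁻¹ * θ * (TT w θ 0)⁻¹ * (TT w θ 0)⁻¹ * θᴴ * w⁻¹) x

/-- the frame, with the matrix `Z` -/
theorem frameZ {w : Matrix (Fin n) (Fin n) ℂ} (hw : w.PosDef)
    (θ : Matrix (Fin n) (Fin q) ℂ) :
    ∃ (μ : Fin q → ℝ) (Q0 : Matrix (Fin n) (Fin n) ℂ) (Q : Fin q → Matrix (Fin n) (Fin n) ℂ),
      (∀ i, 0 ≤ μ i) ∧ Q0.PosSemidef ∧ (∀ i, (Q i).PosSemidef) ∧
      (∀ δ : ℝ, DD w θ δ = ∏ i, (δ + μ i)) ∧
      (AA w θ 0 = ((DD w θ 0 : ℝ) : ℂ) • Q0) ∧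
      (∀ δ : ℝ, 0 < δ → (WW w θ δ)⁻¹ = Q0 + ∑ i, ((δ / (δ + μ i) : ℝ) : ℂ) • Q i) ∧
      (DD w θ 0 ≠ 0 → ((DD w θ 0 : ℝ) : ℂ) • (w⁻¹ * θ * (TT w θ 0)⁻¹ * (TT w θ 0)⁻¹ * θᴴ * w⁻¹) =
        ∑ i, ((∏ j ∈ Finset.univ.erase i, μ j : ℝ) : ℂ) • Q i) := by
  obtain ⟨μ, Q0, Q, h1, h2, h3, h4, h5, h6, h7, h8, -⟩ := H279.frameD hw θ
  refine ⟨μ, Q0, Q, h1, h2, h3, h6, ?_, h8, ?_⟩
  · rw [h7 0, h6 0]
    simp
  intro hD
  have hdet0 : (TT w θ 0).det = ((DD w θ 0 : ℝ) : ℂ) := by rw [h5, h6]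
  have hT : (TT w θ 0).det ≠ 0 := by rw [hdet0]; exact_mod_cast hD
  have hinv : TT w θ 0 * (TT w θ 0)⁻¹ = 1 := Matrix.mul_nonsing_inv _ (isUnit_iff_ne_zero.2 hT)
  have hinv' : (TT w θ 0)⁻¹ * TT w θ 0 = 1 := Matrix.nonsing_inv_mul _ (isUnit_iff_ne_zero.2 hT)
  have hadj0 : (TT w θ 0).adjugate = (TT w θ 0).det • (TT w θ 0)⁻¹ := by
    calc (TT w θ 0).adjugate = (TT w θ 0).adjugate * (TT w θ 0 * (TT w θ 0)⁻¹) := by
          rw [hinv, Matrix.mul_one]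
      _ = _ := by rw [← Matrix.mul_assoc, Matrix.adjugate_mul, Matrix.smul_mul, Matrix.one_mul]
  -- the matrix `w⁻¹ θ adj(δ + T) θᴴ w⁻¹`
  have hPhi : ∀ δ : ℝ, w⁻¹ * θ * (TT w θ δ).adjugate * θᴴ * w⁻¹ =
      ∑ i, ((μ i * ∏ j ∈ Finset.univ.erase i, (δ + μ j) : ℝ) : ℂ) • Q i := by
    intro δ
    have e1 : w⁻¹ * θ * (TT w θ δ).adjugate * θᴴ * w⁻¹ = (TT w θ δ).det • w⁻¹ - AA w θ δ := by
      rw [AA]; abel
    rw [e1, h7, h5, h4, smul_add, Finset.smul_sum, add_sub_add_left_eq_sub,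
      ← Finset.sum_sub_distrib]
    refine Finset.sum_congr rfl fun i _ => ?_
    rw [← sub_smul, ← Complex.ofReal_sub]
    congr 2
    rw [← Finset.mul_prod_erase _ _ (Finset.mem_univ i)]
    ring
  have hTd : ∀ δ : ℝ, TT w θ δ = (δ : ℂ) • (1 : Matrix (Fin q) (Fin q) ℂ) + TT w θ 0 := by
    intro δ; simp [TT]
  -- for `δ ≠ 0`
  have hne : ∀ δ : ℝ, δ ≠ 0 → w⁻¹ * θ * ((TT w θ 0)⁻¹ * (TT w θ δ).adjugate) * θᴴ * w⁻¹ =
      ∑ i, ((∏ j ∈ Finset.univ.erase i, (δ + μ j) : ℝ) : ℂ) • Q i := by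
    intro δ hδ
    have hδ' : (δ : ℂ) ≠ 0 := by exact_mod_cast hδ
    have e1 : (TT w θ 0)⁻¹ * (TT w θ δ).adjugate =
        (δ : ℂ)⁻¹ • ((TT w θ δ).det • (TT w θ 0)⁻¹ - (TT w θ δ).adjugate) := by
      have e2 : TT w θ δ * (TT w θ δ).adjugate = (TT w θ δ).det • 1 := Matrix.mul_adjugate _
      have e3 : (TT w θ 0)⁻¹ * (TT w θ δ * (TT w θ δ).adjugate) =
          (δ : ℂ) • ((TT w θ 0)⁻¹ * (TT w θ δ).adjugate) + (TT w θ δ).adjugate := by
        rw [hTd δ, Matrix.add_mul, Matrix.mul_add, Matrix.smul_mul, Matrix.one_mul,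
          Matrix.mul_smul, ← Matrix.mul_assoc (TT w θ 0)⁻¹ (TT w θ 0), hinv', Matrix.one_mul]
      rw [e2, Matrix.mul_smul, Matrix.mul_one] at e3
      rw [e3, add_sub_cancel_right, smul_smul, inv_mul_cancel₀ hδ', one_smul]
    have e4 : w⁻¹ * θ * (TT w θ 0)⁻¹ * θᴴ * w⁻¹ = ∑ i, Q i := by
      have := hPhi 0
      rw [hadj0, Matrix.mul_smul, Matrix.smul_mul, Matrix.smul_mul] at this
      have e5 : ∑ i, ((μ i * ∏ j ∈ Finset.univ.erase i, (0 + μ j) : ℝ) : ℂ) • Q i =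
          (TT w θ 0).det • ∑ i, Q i := by
        rw [Finset.smul_sum]
        refine Finset.sum_congr rfl fun i _ => ?_
        rw [h5 0, ← Finset.mul_prod_erase _ _ (Finset.mem_univ i)]
        simp
      rw [e5] at this
      exact smul_right_injective _ hT this
    rw [e1, Matrix.mul_smul, Matrix.smul_mul, Matrix.smul_mul, Matrix.mul_sub, Matrix.sub_mul,
      Matrix.sub_mul, Matrix.mul_smul, Matrix.smul_mul, Matrix.smul_mul, e4, hPhi, h5,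
      Finset.smul_sum, ← Finset.sum_sub_distrib, Finset.smul_sum]
    refine Finset.sum_congr rfl fun i _ => ?_
    rw [← sub_smul, ← Complex.ofReal_sub, smul_smul, ← Complex.ofReal_inv, ← Complex.ofReal_mul]
    congr 2
    rw [← Finset.mul_prod_erase _ _ (Finset.mem_univ i)]
    field_simp
    ring
  -- the limit
  have c1 : Continuous fun δ : ℝ => w⁻¹ * θ * ((TT w θ 0)⁻¹ * (TT w θ δ).adjugate) * θᴴ * w⁻¹ := by
    have : Continuous fun δ : ℝ => TT w θ δ := by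
      unfold TT
      exact ((Complex.continuous_ofReal.smul continuous_const).add continuous_const)
    exact ((continuous_const.matrix_mul (continuous_const.matrix_mul
      this.matrix_adjugate)).matrix_mul continuous_const).matrix_mul continuous_const
  have c2 : Continuous fun δ : ℝ =>
      ∑ i, ((∏ j ∈ Finset.univ.erase i, (δ + μ j) : ℝ) : ℂ) • Q i := by
    refine continuous_finsetSum _ fun i _ => ?_
    have h9 : Continuous fun δ : ℝ => ((∏ j ∈ Finset.univ.erase i, (δ + μ j) : ℝ) : ℂ) :=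
      Complex.continuous_ofReal.comp (continuous_finsetProd _ fun j _ =>
        continuous_id.add continuous_const)
    exact h9.smul continuous_const
  have h0 : w⁻¹ * θ * ((TT w θ 0)⁻¹ * (TT w θ 0).adjugate) * θᴴ * w⁻¹ =
      ∑ i, ((∏ j ∈ Finset.univ.erase i, (0 + μ j) : ℝ) : ℂ) • Q i := by
    have t1 := (c1.tendsto 0).mono_left (nhdsWithin_le_nhds (s := Set.Ioi (0 : ℝ)))
    have t2 := (c2.tendsto 0).mono_left (nhdsWithin_le_nhds (s := Set.Ioi (0 : ℝ)))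
    refine tendsto_nhds_unique (t1.congr' ?_) t2
    filter_upwards [self_mem_nhdsWithin] with δ hδ
    exact hne δ (ne_of_gt hδ)
  rw [hadj0, hdet0] at h0
  simp only [zero_add] at h0
  rw [← h0]
  simp only [Matrix.mul_smul, Matrix.smul_mul, Matrix.mul_assoc]

theorem tr2_nonneg {A B x : Matrix (Fin n) (Fin n) ℂ} (hA : A.PosSemidef) (hB : B.PosSemidef)
    (hx : x.IsHermitian) : 0 ≤ tr2 A B x := H279.trq_nn hA hB hx

theorem tr2_smul_left (c : ℝ) (A B x : Matrix (Fin n) (Fin n) ℂ) :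
    tr2 ((c : ℂ) • A) B x = c * tr2 A B x := by
  rw [tr2, tr2, Matrix.smul_mul, Matrix.smul_mul, Matrix.trace_smul, smul_eq_mul,
    Complex.re_ofReal_mul]

theorem tr2_smul_right (c : ℝ) (A B x : Matrix (Fin n) (Fin n) ℂ) :
    tr2 A ((c : ℂ) • B) x = c * tr2 A B x := by
  rw [tr2, tr2, Matrix.smul_mul, Matrix.mul_smul, Matrix.trace_smul, smul_eq_mul,
    Complex.re_ofReal_mul]

theorem tr2_add_left (A A' B x : Matrix (Fin n) (Fin n) ℂ) :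
    tr2 (A + A') B x = tr2 A B x + tr2 A' B x := by
  rw [tr2, tr2, tr2, Matrix.add_mul, Matrix.add_mul, Matrix.trace_add, Complex.add_re]

theorem tr2_add_right (A B B' x : Matrix (Fin n) (Fin n) ℂ) :
    tr2 A (B + B') x = tr2 A B x + tr2 A B' x := by
  rw [tr2, tr2, tr2, Matrix.add_mul, Matrix.mul_add, Matrix.trace_add, Complex.add_re]

theorem tr2_sum_right {ι : Type*} (s : Finset ι) (A : Matrix (Fin n) (Fin n) ℂ)
    (B : ι → Matrix (Fin n) (Fin n) ℂ) (x : Matrix (Fin n) (Fin n) ℂ) :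
    tr2 A (∑ i ∈ s, B i) x = ∑ i ∈ s, tr2 A (B i) x := by
  classical
  induction s using Finset.induction_on with
  | empty => simp [tr2]
  | insert a s ha ih => rw [Finset.sum_insert ha, Finset.sum_insert ha, tr2_add_right, ih]

theorem tr2_comm (A B x : Matrix (Fin n) (Fin n) ℂ) : tr2 A B x = tr2 B A x := by
  rw [tr2, tr2, Matrix.trace_mul_comm]

theorem zz_frame {w : Matrix (Fin n) (Fin n) ℂ} {θ : Matrix (Fin n) (Fin q) ℂ} {μ : Fin q → ℝ}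
    {Q0 : Matrix (Fin n) (Fin n) ℂ} {Q : Fin q → Matrix (Fin n) (Fin n) ℂ}
    (hA : AA w θ 0 = ((DD w θ 0 : ℝ) : ℂ) • Q0)
    (hZ : ((DD w θ 0 : ℝ) : ℂ) • (w⁻¹ * θ * (TT w θ 0)⁻¹ * (TT w θ 0)⁻¹ * θᴴ * w⁻¹) =
        ∑ i, ((∏ j ∈ Finset.univ.erase i, μ j : ℝ) : ℂ) • Q i)
    (x : Matrix (Fin n) (Fin n) ℂ) :
    zz w θ x = ∑ i, (∏ j ∈ Finset.univ.erase i, μ j) * tr2 Q0 (Q i) x := by
  rw [zz, hA, tr2_smul_left, ← tr2_smul_right, hZ, tr2_sum_right]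
  exact Finset.sum_congr rfl fun i _ => tr2_smul_right _ _ _ _

theorem zz_nonneg {w : Matrix (Fin n) (Fin n) ℂ} (hw : w.PosDef) (θ : Matrix (Fin n) (Fin q) ℂ)
    {x : Matrix (Fin n) (Fin n) ℂ} (hx : x.IsHermitian) : 0 ≤ zz w θ x := by
  obtain ⟨μ, Q0, Q, h1, h2, h3, h4, h5, h6, h7⟩ := frameZ hw θ
  by_cases hD : DD w θ 0 = 0
  · rw [zz, h5, hD]
    simp [tr2]
  · rw [zz_frame h5 (h7 hD)]
    exact Finset.sum_nonneg fun i _ => mul_nonneg (Finset.prod_nonneg fun j _ => h1 j)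
      (tr2_nonneg h2 (h3 i) hx)

/-- **The inequality for `zz`.** -/
theorem main2 {w : Matrix (Fin n) (Fin n) ℂ} (hw : w.PosDef) (θ : Matrix (Fin n) (Fin q) ℂ)
    {δ : ℝ} (hδ : 0 < δ) {x : Matrix (Fin n) (Fin n) ℂ} (hx : x.IsHermitian) :
    2 * δ * zz w θ x + tr2 (AA w θ 0) (AA w θ 0) x / DD w θ 0 ≤
      DD w θ δ * tr2 (WW w θ δ)⁻¹ (WW w θ δ)⁻¹ x := by
  obtain ⟨μ, Q0, Q, h1, h2, h3, h4, h5, h6, h7⟩ := frameZ hw θ
  have hpos : ∀ i, 0 < δ + μ i := fun i => by linarith [h1 i]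
  have hDδ : 0 ≤ DD w θ δ := by rw [h4]; exact Finset.prod_nonneg fun i _ => (hpos i).le
  set R : Matrix (Fin n) (Fin n) ℂ := ∑ i, ((δ / (δ + μ i) : ℝ) : ℂ) • Q i with hR
  have hRp : R.PosSemidef := posSemidef_sum _ fun i _ =>
    (h3 i).smul (by exact_mod_cast (div_pos hδ (hpos i)).le)
  have e1 : tr2 (WW w θ δ)⁻¹ (WW w θ δ)⁻¹ x = tr2 Q0 Q0 x + 2 * tr2 Q0 R x + tr2 R R x := by
    rw [h6 δ hδ, tr2_add_left, tr2_add_right, tr2_add_right, tr2_comm R Q0]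
    ring
  have e2 : DD w θ δ * tr2 Q0 R x =
      ∑ i, δ * (∏ j ∈ Finset.univ.erase i, (δ + μ j)) * tr2 Q0 (Q i) x := by
    rw [hR, tr2_sum_right, Finset.mul_sum]
    refine Finset.sum_congr rfl fun i _ => ?_
    rw [tr2_smul_right, h4, ← Finset.mul_prod_erase _ _ (Finset.mem_univ i)]
    have := (hpos i).ne'
    field_simp
  have hQ := fun i => tr2_nonneg h2 (h3 i) hx
  have p1 : 0 ≤ tr2 Q0 Q0 x := tr2_nonneg h2 h2 hx
  have p2 : 0 ≤ tr2 R R x := tr2_nonneg hRp hRp hx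
  by_cases hD : DD w θ 0 = 0
  · have z0 : zz w θ x = 0 := by rw [zz, h5, hD]; simp [tr2]
    have z1 : 0 ≤ tr2 Q0 R x := tr2_nonneg h2 hRp hx
    rw [z0, hD, div_zero, mul_zero, zero_add, e1]
    positivity
  · have hD0 : 0 ≤ DD w θ 0 := by rw [h4]; exact Finset.prod_nonneg fun i _ => by simpa using h1 i
    have hle : DD w θ 0 ≤ DD w θ δ := by
      rw [h4, h4]
      exact Finset.prod_le_prod (fun i _ => by simpa using h1 i) fun i _ => by linarith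
    have e3 : tr2 (AA w θ 0) (AA w θ 0) x / DD w θ 0 = DD w θ 0 * tr2 Q0 Q0 x := by
      rw [h5, tr2_smul_left, tr2_smul_right]
      field_simp
    have e4 : δ * zz w θ x ≤ DD w θ δ * tr2 Q0 R x := by
      rw [zz_frame h5 (h7 hD), e2, Finset.mul_sum]
      refine Finset.sum_le_sum fun i _ => ?_
      rw [← mul_assoc]
      refine mul_le_mul_of_nonneg_right (mul_le_mul_of_nonneg_left ?_ hδ.le) (hQ i)
      exact Finset.prod_le_prod (fun j _ => h1 j) fun j _ => by linarith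
    rw [e3, e1]
    have e5 : DD w θ 0 * tr2 Q0 Q0 x ≤ DD w θ δ * tr2 Q0 Q0 x := mul_le_mul_of_nonneg_right hle p1
    have e6 : 0 ≤ DD w θ δ * tr2 R R x := mul_nonneg hDδ p2
    nlinarith

end Vale.Agent.P284.H650
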